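import Vale.Agent.P113.Bump

/-! # Periodic admissible functions

`Adm g` says that `g ν t x` is built from periodized bumps and the allowed constants by sums and
products. Such functions are sums of lists of valid periodic terms, they are smooth, periodic, and
the class is closed under the derivatives. -/

open Set MeasureTheory Filter Topology
open scoped ContDiff

namespace Vale.Agent.P113

/-- The algebra generated by the allowed constants and the periodized bumps; the arguments are
the viscosity, the time and the point. -/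
inductive Adm : (ℝ → ℝ → R3 → ℝ) → Prop
  | rat (q : ℚ) : Adm fun _ _ _ => q
  | nu : Adm fun ν _ _ => ν
  | kap (n : ℤ) : Adm fun _ _ _ => kappa ^ n
  | log (r : ℚ) (hr : 0 < r) : Adm fun _ _ _ => Real.log r
  | time (b : Bump) (hb : b.Valid) : Adm fun _ t _ => per b.eval t
  | space (i : Fin 3) (b : Bump) (hb : b.Valid) : Adm fun _ _ x => per b.eval (x i)
  | add {g h : ℝ → ℝ → R3 → ℝ} : Adm g → Adm h → Adm fun ν t x => g ν t x + h ν t x
  | mul {g h : ℝ → ℝ → R3 → ℝ} : Adm g → Adm h → Adm fun ν t x => g ν t x * h ν t x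

namespace Adm

variable {g h : ℝ → ℝ → R3 → ℝ}

theorem congr (hg : Adm g) (e : ∀ ν t x, h ν t x = g ν t x) : Adm h := by
  have : h = g := by funext ν t x; exact e ν t x
  rwa [this]

theorem zero : Adm fun _ _ _ => 0 := (rat 0).congr fun _ _ _ => by simp

theorem one : Adm fun _ _ _ => 1 := (rat 1).congr fun _ _ _ => by simp

theorem natCast (n : ℕ) : Adm fun _ _ _ => n := (rat n).congr fun _ _ _ => by simp

theorem kapInv : Adm fun _ _ _ => kappa⁻¹ := (kap (-1)).congr fun _ _ _ => by simp

theorem smul (q : ℚ) (hg : Adm g) : Adm fun ν t x => q * g ν t x := (rat q).mul hg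

theorem neg (hg : Adm g) : Adm fun ν t x => -g ν t x :=
  (hg.smul (-1)).congr fun _ _ _ => by simp

theorem sub (hg : Adm g) (hh : Adm h) : Adm fun ν t x => g ν t x - h ν t x :=
  (hg.add hh.neg).congr fun _ _ _ => sub_eq_add_neg _ _

theorem div_kappa (hg : Adm g) : Adm fun ν t x => g ν t x / kappa :=
  (hg.mul kapInv).congr fun _ _ _ => div_eq_mul_inv _ _

theorem sum {ι : Type*} (s : Finset ι) {G : ι → ℝ → ℝ → R3 → ℝ} (hG : ∀ i ∈ s, Adm (G i)) :
    Adm fun ν t x => ∑ i ∈ s, G i ν t x := by
  classical
  induction s using Finset.induction_on with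
  | empty => exact zero.congr fun _ _ _ => by simp
  | insert a s ha ih =>
    refine ((hG a (Finset.mem_insert_self _ _)).add
      (ih fun i hi => hG i (Finset.mem_insert_of_mem hi))).congr fun _ _ _ => ?_
    rw [Finset.sum_insert ha]

theorem prod {ι : Type*} (s : Finset ι) {G : ι → ℝ → ℝ → R3 → ℝ} (hG : ∀ i ∈ s, Adm (G i)) :
    Adm fun ν t x => ∏ i ∈ s, G i ν t x := by
  classical
  induction s using Finset.induction_on with
  | empty => exact one.congr fun _ _ _ => by simp
  | insert a s ha ih =>
    refine ((hG a (Finset.mem_insert_self _ _)).mul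
      (ih fun i hi => hG i (Finset.mem_insert_of_mem hi))).congr fun _ _ _ => ?_
    rw [Finset.prod_insert ha]

theorem ite (c : Prop) [Decidable c] (hg : Adm g) (hh : Adm h) :
    Adm fun ν t x => if c then g ν t x else h ν t x := by
  by_cases hc : c
  · exact hg.congr fun _ _ _ => if_pos hc
  · exact hh.congr fun _ _ _ => if_neg hc

/-- Smoothness in time and space. -/
theorem contDiff (hg : Adm g) (ν : ℝ) : ContDiff ℝ ∞ fun z : ℝ × R3 => g ν z.1 z.2 := by
  induction hg with
  | rat q => exact contDiff_const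
  | nu => exact contDiff_const
  | kap n => exact contDiff_const
  | log r hr => exact contDiff_const
  | time b hb => exact hb.cs.contDiff_per.comp contDiff_fst
  | space i b hb => exact hb.cs.contDiff_per.comp ((contDiff_apply ℝ ℝ i).comp contDiff_snd)
  | add _ _ ih1 ih2 => exact ih1.add ih2
  | mul _ _ ih1 ih2 => exact ih1.mul ih2

/-- Periodicity in space. -/
theorem periodic_space (hg : Adm g) (ν t : ℝ) (x : R3) (m : Fin 3 → ℤ) :
    g ν t (x + fun i => (m i : ℝ)) = g ν t x := by
  induction hg with
  | rat q => rfl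
  | nu => rfl
  | kap n => rfl
  | log r hr => rfl
  | time b hb => rfl
  | space i b hb => exact per_add_int _ _ _
  | add _ _ ih1 ih2 => beta_reduce; rw [ih1, ih2]
  | mul _ _ ih1 ih2 => beta_reduce; rw [ih1, ih2]

/-- Periodicity in time. -/
theorem periodic_time (hg : Adm g) (ν t : ℝ) (x : R3) (m : ℤ) : g ν (t + m) x = g ν t x := by
  induction hg with
  | rat q => rfl
  | nu => rfl
  | kap n => rfl
  | log r hr => rfl
  | time b hb => exact per_add_int _ _ _
  | space i b hb => rfl
  | add _ _ ih1 ih2 => beta_reduce; rw [ih1, ih2]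
  | mul _ _ ih1 ih2 => beta_reduce; rw [ih1, ih2]

theorem differentiable_time (hg : Adm g) (ν : ℝ) (x : R3) :
    Differentiable ℝ fun s => g ν s x :=
  ((hg.contDiff ν).differentiable (by simp)).comp (differentiable_id.prodMk (differentiable_const x))

theorem differentiable_single (j : Fin 3) : Differentiable ℝ fun s : ℝ => (Pi.single j s : R3) := by
  refine differentiable_pi.2 fun i => ?_
  by_cases h : i = j
  · subst h; simp
  · simp [Pi.single_eq_of_ne h]

theorem differentiable_line (hg : Adm g) (ν t : ℝ) (x : R3) (j : Fin 3) :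
    Differentiable ℝ fun s : ℝ => g ν t (x + Pi.single j s) :=
  ((hg.contDiff ν).differentiable (by simp)).comp ((differentiable_const t).prodMk
    ((differentiable_const x).add (differentiable_single j)))

/-- The derivative of a periodized bump, put into any of the four slots. -/
theorem deriv_per_bump (b : Bump) (hb : b.Valid) (c : ℝ → R3 → ℝ)
    (hc : ∀ b : Bump, b.Valid → Adm fun _ t x => per b.eval (c t x)) :
    Adm fun _ t x => deriv (per b.eval) (c t x) := by
  obtain ⟨k, j | l, a, b⟩ := b
  · refine (((hc (k - 1, .inl j, a, b) hb).smul k).add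
      ((hc (k, .inl (j + 1), a, b) hb).smul a)).congr fun _ t x => ?_
    rw [(hasDerivAt_per_inl k j hb b _).deriv, Rat.cast_natCast]
  · refine (((hc (k - 1, .inr l, a, b) hb).smul k).add
      (((hc (k, .inl 0, a, b) hb.1).smul a).add
        ((hc (k, .inl 0, a, b + l) hb.1).smul (-a)))).congr fun _ t x => ?_
    rw [(hasDerivAt_per_inr k hb.1 hb.2 b _).deriv, Rat.cast_natCast, Rat.cast_neg]

/-- Closure under the time derivative. -/
theorem dt (hg : Adm g) : Adm fun ν t x => deriv (fun s => g ν s x) t := by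
  induction hg with
  | rat q => exact zero.congr fun _ _ _ => deriv_const _ _
  | nu => exact zero.congr fun _ _ _ => deriv_const _ _
  | kap n => exact zero.congr fun _ _ _ => deriv_const _ _
  | log r hr => exact zero.congr fun _ _ _ => deriv_const _ _
  | time b hb => exact deriv_per_bump b hb (fun t _ => t) time
  | space i b hb => exact zero.congr fun _ _ _ => deriv_const _ _
  | add h1 h2 ih1 ih2 =>
    exact (ih1.add ih2).congr fun ν t x =>
      deriv_fun_add (h1.differentiable_time ν x t) (h2.differentiable_time ν x t)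
  | mul h1 h2 ih1 ih2 =>
    exact ((ih1.mul h2).add (h1.mul ih2)).congr fun ν t x =>
      deriv_fun_mul (h1.differentiable_time ν x t) (h2.differentiable_time ν x t)

/-- Closure under the spatial derivatives. -/
theorem dx (hg : Adm g) (j : Fin 3) :
    Adm fun ν t x => deriv (fun s : ℝ => g ν t (x + Pi.single j s)) 0 := by
  induction hg with
  | rat q => exact zero.congr fun _ _ _ => deriv_const _ _
  | nu => exact zero.congr fun _ _ _ => deriv_const _ _
  | kap n => exact zero.congr fun _ _ _ => deriv_const _ _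
  | log r hr => exact zero.congr fun _ _ _ => deriv_const _ _
  | time b hb => exact zero.congr fun _ _ _ => deriv_const _ _
  | space i b hb =>
    by_cases h : i = j
    · subst h
      refine (deriv_per_bump b hb (fun _ x => x i) (space i)).congr fun _ _ x => ?_
      simp only [Pi.add_apply, Pi.single_eq_same]
      rw [deriv_comp_const_add, add_zero]
    · refine zero.congr fun _ _ x => ?_
      simp only [Pi.add_apply, Pi.single_eq_of_ne h]
      exact deriv_const _ _
  | add h1 h2 ih1 ih2 =>
    exact (ih1.add ih2).congr fun ν t x =>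
      deriv_fun_add (h1.differentiable_line ν t x j 0) (h2.differentiable_line ν t x j 0)
  | mul h1 h2 ih1 ih2 =>
    refine ((ih1.mul h2).add (h1.mul ih2)).congr fun ν t x => ?_
    rw [deriv_fun_mul (h1.differentiable_line ν t x j 0) (h2.differentiable_line ν t x j 0)]
    simp

end Adm

/-! ## Lists of terms -/

/-- The product of two terms. -/
def Term.mul : Term → Term → Term
  | ((q, m, n, r), (g, g'), h), ((q₂, m₂, n₂, r₂), (g₂, g₂'), h₂) =>
    ((q * q₂, m + m₂, n + n₂, r ++ r₂), (g ++ g₂, g' ++ g₂'), fun i => h i ++ h₂ i)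

theorem perProd_nil (y : ℝ) : perProd [] y = 1 := rfl

theorem perProd_singleton (b : Bump) (y : ℝ) : perProd [b] y = per b.eval y := by
  simp [perProd]

theorem perProd_append (l l' : List Bump) (y : ℝ) :
    perProd (l ++ l') y = perProd l y * perProd l' y := by
  simp [perProd]

theorem Term.eval_mul (ν : ℝ) (σ τ : Term) (t : ℝ) (x : R3) :
    (σ.mul τ).eval ν t x = σ.eval ν t x * τ.eval ν t x := by
  obtain ⟨⟨q, m, n, r⟩, ⟨g, g'⟩, h⟩ := σ
  obtain ⟨⟨q₂, m₂, n₂, r₂⟩, ⟨g₂, g₂'⟩, h₂⟩ := τ
  simp only [Term.mul, Term.eval, perProd_append, List.map_append, List.prod_append,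
    Finset.prod_mul_distrib, Rat.cast_mul, pow_add, zpow_add₀ kappa_ne]
  ring

theorem Term.Valid.mul {σ τ : Term} (hσ : σ.Valid) (hτ : τ.Valid) : (σ.mul τ).Valid := by
  obtain ⟨⟨q, m, n, r⟩, ⟨g, g'⟩, h⟩ := σ
  obtain ⟨⟨q₂, m₂, n₂, r₂⟩, ⟨g₂, g₂'⟩, h₂⟩ := τ
  obtain ⟨a1, a2, a3, a4⟩ := hσ
  obtain ⟨b1, b2, b3, b4⟩ := hτ
  exact ⟨List.forall_mem_append.2 ⟨a1, b1⟩, List.forall_mem_append.2 ⟨a2, b2⟩,
    List.forall_mem_append.2 ⟨a3, b3⟩, fun i => List.forall_mem_append.2 ⟨a4 i, b4 i⟩⟩

theorem Term.periodic_mul {σ τ : Term} (hσ : σ.periodic = true) (hτ : τ.periodic = true) :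
    (σ.mul τ).periodic = true := by
  obtain ⟨⟨q, m, n, r⟩, ⟨g, g'⟩, h⟩ := σ
  obtain ⟨⟨q₂, m₂, n₂, r₂⟩, ⟨g₂, g₂'⟩, h₂⟩ := τ
  simp only [Term.periodic, List.isEmpty_iff] at hσ hτ
  subst hσ hτ
  rfl

theorem sum_map_flatMap_mul (ν t : ℝ) (x : R3) (L L' : List Term) :
    ((L.flatMap fun σ => L'.map σ.mul).map fun τ => τ.eval ν t x).sum =
      (L.map fun τ => τ.eval ν t x).sum * (L'.map fun τ => τ.eval ν t x).sum := by
  induction L with
  | nil => simp
  | cons σ L ih =>
    rw [List.flatMap_cons, List.map_append, List.sum_append, ih, List.map_cons, List.sum_cons,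
      add_mul, List.map_map]
    congr 1
    rw [← List.sum_map_mul_left]
    congr 1
    exact List.map_congr_left fun τ _ => Term.eval_mul ν σ τ t x

/-- A periodic admissible function is the sum of a list of valid periodic terms. -/
theorem Adm.exists_list {g : ℝ → ℝ → R3 → ℝ} (hg : Adm g) :
    ∃ L : List Term, (∀ τ ∈ L, τ.Valid ∧ τ.periodic = true) ∧
      ∀ ν t x, g ν t x = (L.map fun τ => τ.eval ν t x).sum := by
  induction hg with
  | rat q =>
    exact ⟨[((q, 0, 0, []), ([], []), fun _ => [])],
      by simp [Term.Valid, Term.periodic], fun ν t x => by simp [Term.eval, perProd_nil]⟩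
  | nu =>
    exact ⟨[((1, 1, 0, []), ([], []), fun _ => [])],
      by simp [Term.Valid, Term.periodic], fun ν t x => by simp [Term.eval, perProd_nil]⟩
  | kap n =>
    exact ⟨[((1, 0, n, []), ([], []), fun _ => [])],
      by simp [Term.Valid, Term.periodic], fun ν t x => by simp [Term.eval, perProd_nil]⟩
  | log r hr =>
    exact ⟨[((1, 0, 0, [r]), ([], []), fun _ => [])],
      by simp [Term.Valid, Term.periodic, hr], fun ν t x => by simp [Term.eval, perProd_nil]⟩
  | time b hb =>
    refine ⟨[((1, 0, 0, []), ([], [b]), fun _ => [])], ?_,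
      fun ν t x => by simp [Term.eval, perProd_nil, perProd_singleton]⟩
    simp only [List.mem_singleton, forall_eq, Term.Valid, Term.periodic, List.not_mem_nil,
      false_imp_iff, imp_true_iff, true_and, List.isEmpty_nil, and_true]
    exact hb
  | space i b hb =>
    refine ⟨[((1, 0, 0, []), ([], []), fun k => if k = i then [b] else [])], ?_, fun ν t x => ?_⟩
    · simp only [List.mem_singleton, forall_eq, Term.Valid, Term.periodic, List.not_mem_nil,
        false_imp_iff, imp_true_iff, true_and, List.isEmpty_nil, and_true]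
      intro k c hc
      split_ifs at hc with h
      · rw [List.mem_singleton.1 hc]; exact hb
      · simp at hc
    · simp only [Term.eval, perProd_nil, List.map_cons, List.map_nil, List.sum_cons, List.sum_nil,
        List.prod_nil, Rat.cast_one, pow_zero, zpow_zero, mul_one, one_mul, add_zero]
      rw [Finset.prod_eq_single i]
      · rw [if_pos rfl, perProd_singleton]
      · intro k _ hk; rw [if_neg hk, perProd_nil]
      · simp
  | add _ _ ih1 ih2 =>
    obtain ⟨L, h1, h2⟩ := ih1
    obtain ⟨L', h1', h2'⟩ := ih2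
    exact ⟨L ++ L', List.forall_mem_append.2 ⟨h1, h1'⟩, fun ν t x => by
      rw [List.map_append, List.sum_append, ← h2, ← h2']⟩
  | mul _ _ ih1 ih2 =>
    obtain ⟨L, h1, h2⟩ := ih1
    obtain ⟨L', h1', h2'⟩ := ih2
    refine ⟨L.flatMap fun σ => L'.map σ.mul, fun τ hτ => ?_, fun ν t x => by
      rw [sum_map_flatMap_mul, ← h2, ← h2']⟩
    obtain ⟨σ, hσ, hτ⟩ := List.mem_flatMap.1 hτ
    obtain ⟨σ', hσ', rfl⟩ := List.mem_map.1 hτ
    exact ⟨(h1 σ hσ).1.mul (h1' σ' hσ').1, Term.periodic_mul (h1 σ hσ).2 (h1' σ' hσ').2⟩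

end Vale.Agent.P113
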