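import Vale.Agent.P113.Defs
import Mathlib.Analysis.SpecialFunctions.SmoothTransition
import Mathlib.Analysis.Calculus.IteratedDeriv.Lemmas
import Mathlib.MeasureTheory.Integral.IntervalIntegral.FundThmCalculus
import Mathlib.MeasureTheory.Integral.IntegralEqImproper
import Mathlib.Analysis.Calculus.ContDiff.Deriv

/-! # Calculus of the bumps and of their periodizations -/

open Set MeasureTheory Filter Topology
open scoped ContDiff

namespace Vale.Agent.P113

/-! ## The function `rho` -/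

theorem rho_eq (s : ℝ) : rho s = expNegInvGlue (1 - s ^ 2) := by
  unfold rho expNegInvGlue
  by_cases h : |s| < 1
  · have h2 : 0 < 1 - s ^ 2 := by
      have := (sq_lt_one_iff_abs_lt_one s).2 h
      linarith
    rw [if_pos h, if_neg (not_le.2 h2)]
    congr 1
    rw [neg_div, one_div]
  · have h2 : 1 - s ^ 2 ≤ 0 := by
      have : ¬ s ^ 2 < 1 := fun h' => h ((sq_lt_one_iff_abs_lt_one s).1 h')
      linarith
    rw [if_neg h, if_pos h2]

theorem contDiff_rho : ContDiff ℝ ∞ rho := by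
  have : rho = fun s => expNegInvGlue (1 - s ^ 2) := funext rho_eq
  rw [this]
  exact expNegInvGlue.contDiff.comp (by fun_prop)

theorem continuous_rho : Continuous rho := contDiff_rho.continuous

theorem rho_nonneg (s : ℝ) : 0 ≤ rho s := by
  rw [rho_eq]; exact expNegInvGlue.nonneg _

theorem rho_eq_zero {s : ℝ} (h : 1 ≤ |s|) : rho s = 0 := by
  unfold rho; rw [if_neg (not_lt.2 h)]

theorem rho_of_le {s : ℝ} (h : s ≤ -1) : rho s = 0 :=
  rho_eq_zero (by rw [abs_of_neg (by linarith)]; linarith)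

theorem rho_of_ge {s : ℝ} (h : 1 ≤ s) : rho s = 0 :=
  rho_eq_zero (by rw [abs_of_pos (by linarith)]; linarith)

theorem rho_pos {s : ℝ} (h : |s| < 1) : 0 < rho s := by
  unfold rho; rw [if_pos h]; exact Real.exp_pos _

theorem hasCompactSupport_rho : HasCompactSupport rho := by
  refine HasCompactSupport.intro (isCompact_Icc (a := (-1 : ℝ)) (b := 1)) fun s hs => ?_
  apply rho_eq_zero
  by_contra h
  rw [not_le, abs_lt] at h
  exact hs ⟨h.1.le, h.2.le⟩

theorem integrable_rho : Integrable rho :=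
  continuous_rho.integrable_of_hasCompactSupport hasCompactSupport_rho

theorem kappa_pos : 0 < kappa := by
  unfold kappa
  exact continuous_rho.integral_pos_of_hasCompactSupport_nonneg_nonzero hasCompactSupport_rho
    rho_nonneg (rho_pos (s := 0) (by simp)).ne'

theorem kappa_ne : kappa ≠ 0 := kappa_pos.ne'

/-! ## The functions `sigma` and `piL` -/

theorem sigma_of_le {s : ℝ} (h : s ≤ -1) : sigma s = 0 := by
  unfold sigma
  exact setIntegral_eq_zero_of_forall_eq_zero fun r hr => rho_of_le (le_trans hr h)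

theorem sigma_sub (a b : ℝ) : sigma b - sigma a = ∫ r in a..b, rho r :=
  intervalIntegral.integral_Iic_sub_Iic integrable_rho.integrableOn integrable_rho.integrableOn

theorem sigma_eq (s : ℝ) : sigma s = ∫ r in (-1 : ℝ)..s, rho r := by
  rw [← sigma_sub, sigma_of_le le_rfl, sub_zero]

theorem hasDerivAt_sigma (s : ℝ) : HasDerivAt sigma (rho s) s := by
  have : sigma = fun s => ∫ r in (-1 : ℝ)..s, rho r := funext sigma_eq
  rw [this]
  exact (continuous_rho.integral_hasStrictDerivAt (-1) s).hasDerivAt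

theorem deriv_sigma : deriv sigma = rho := funext fun s => (hasDerivAt_sigma s).deriv

theorem contDiff_sigma : ContDiff ℝ ∞ sigma := by
  rw [contDiff_infty_iff_deriv, deriv_sigma]
  exact ⟨fun s => (hasDerivAt_sigma s).differentiableAt, contDiff_rho⟩

theorem monotone_sigma : Monotone sigma := by
  intro a b hab
  have := sigma_sub a b
  have h2 : 0 ≤ ∫ r in a..b, rho r := intervalIntegral.integral_nonneg hab fun r _ => rho_nonneg r
  linarith

theorem sigma_of_ge {s : ℝ} (h : 1 ≤ s) : sigma s = kappa := by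
  unfold sigma kappa
  apply setIntegral_eq_integral_of_forall_compl_eq_zero
  intro r hr
  exact rho_of_ge (by simp only [mem_Iic, not_le] at hr; linarith)

theorem sigma_nonneg (s : ℝ) : 0 ≤ sigma s := by
  rcases le_total s (-1) with h | h
  · rw [sigma_of_le h]
  · rw [← sigma_of_le (le_refl (-1 : ℝ))]; exact monotone_sigma h

theorem sigma_le (s : ℝ) : sigma s ≤ kappa := by
  rcases le_total 1 s with h | h
  · rw [sigma_of_ge h]
  · rw [← sigma_of_ge (le_refl (1 : ℝ))]; exact monotone_sigma h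

theorem contDiff_piL (l : ℝ) : ContDiff ℝ ∞ (piL l) :=
  contDiff_sigma.sub (contDiff_sigma.comp (contDiff_id.sub contDiff_const))

theorem hasDerivAt_piL (l s : ℝ) : HasDerivAt (piL l) (rho s - rho (s - l)) s := by
  have h := (hasDerivAt_sigma (s - l)).comp_sub_const s l
  exact (hasDerivAt_sigma s).sub h

theorem piL_of_le {l s : ℝ} (hl : 0 ≤ l) (h : s ≤ -1) : piL l s = 0 := by
  unfold piL; rw [sigma_of_le h, sigma_of_le (by linarith), sub_zero]

theorem piL_of_ge {l s : ℝ} (hl : 0 ≤ l) (h : l + 1 ≤ s) : piL l s = 0 := by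
  unfold piL; rw [sigma_of_ge (by linarith), sigma_of_ge (by linarith), sub_self]

/-- The plateau: `π_ℓ = κ` on `[1, ℓ - 1]`. -/
theorem piL_of_mem {l s : ℝ} (h1 : 1 ≤ s) (h2 : s ≤ l - 1) : piL l s = kappa := by
  unfold piL; rw [sigma_of_ge h1, sigma_of_le (by linarith), sub_zero]

theorem piL_nonneg {l : ℝ} (hl : 0 ≤ l) (s : ℝ) : 0 ≤ piL l s :=
  sub_nonneg.2 (monotone_sigma (by linarith))

theorem piL_le (l s : ℝ) : piL l s ≤ kappa := by
  unfold piL; linarith [sigma_le s, sigma_nonneg (s - l)]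

/-! ## Smooth functions with bounded support -/

/-- Smooth and zero outside a bounded interval. -/
def CS (g : ℝ → ℝ) : Prop := ContDiff ℝ ∞ g ∧ ∃ R : ℝ, ∀ s, R < |s| → g s = 0

theorem deriv_eq_zero_of_abs {g : ℝ → ℝ} {R : ℝ} (h : ∀ s, R < |s| → g s = 0) (s : ℝ)
    (hs : R < |s|) : deriv g s = 0 := by
  have : g =ᶠ[𝓝 s] fun _ => 0 := by
    have ho : IsOpen {s : ℝ | R < |s|} := isOpen_lt continuous_const continuous_abs
    filter_upwards [ho.mem_nhds hs] with r hr using h r hr
  rw [this.deriv_eq, deriv_const]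

theorem CS.deriv {g : ℝ → ℝ} (h : CS g) : CS (deriv g) := by
  obtain ⟨h1, R, hR⟩ := h
  exact ⟨(contDiff_infty_iff_deriv.1 h1).2, R, deriv_eq_zero_of_abs hR⟩

theorem CS.add {g h : ℝ → ℝ} (hg : CS g) (hh : CS h) : CS fun s => g s + h s := by
  obtain ⟨h1, R, hR⟩ := hg
  obtain ⟨h2, S, hS⟩ := hh
  refine ⟨h1.add h2, max R S, fun s hs => ?_⟩
  beta_reduce
  rw [hR s (lt_of_le_of_lt (le_max_left _ _) hs), hS s (lt_of_le_of_lt (le_max_right _ _) hs),
    add_zero]

theorem CS.mul_left {g h : ℝ → ℝ} (hg : ContDiff ℝ ∞ g) (hh : CS h) : CS fun s => g s * h s := by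
  obtain ⟨h2, S, hS⟩ := hh
  exact ⟨hg.mul h2, S, fun s hs => by beta_reduce; rw [hS s hs, mul_zero]⟩

theorem CS.affine {g : ℝ → ℝ} (hg : CS g) {a : ℝ} (ha : a ≠ 0) (b : ℝ) :
    CS fun s => g (a * s - b) := by
  obtain ⟨h1, R, hR⟩ := hg
  refine ⟨h1.comp (by fun_prop), (R + |b|) / |a|, fun s hs => hR _ ?_⟩
  have ha' : 0 < |a| := abs_pos.2 ha
  rw [div_lt_iff₀ ha'] at hs
  have h3 : |a * s| - |b| ≤ |a * s - b| := abs_sub_abs_le_abs_sub _ _
  rw [abs_mul] at h3
  linarith [mul_comm |s| |a|]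

theorem cs_rho : CS rho := ⟨contDiff_rho, 1, fun _ hs => rho_eq_zero hs.le⟩

theorem cs_iteratedDeriv_rho (j : ℕ) : CS (iteratedDeriv j rho) := by
  induction j with
  | zero => simpa using cs_rho
  | succ j ih => rw [iteratedDeriv_succ]; exact ih.deriv

theorem iteratedDeriv_rho_eq_zero (j : ℕ) (s : ℝ) (hs : 1 < |s|) : iteratedDeriv j rho s = 0 := by
  induction j generalizing s with
  | zero => simpa using rho_eq_zero hs.le
  | succ j ih => rw [iteratedDeriv_succ]; exact deriv_eq_zero_of_abs ih s hs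

/-- All derivatives of `rho` vanish outside `(-1, 1)`. -/
theorem iteratedDeriv_rho_of_le (j : ℕ) {s : ℝ} (hs : 1 ≤ |s|) : iteratedDeriv j rho s = 0 := by
  have hc : Continuous (iteratedDeriv j rho) := (cs_iteratedDeriv_rho j).1.continuous
  have hcl : IsClosed {s : ℝ | iteratedDeriv j rho s = 0} := isClosed_eq hc continuous_const
  rcases le_abs.1 hs with h | h
  · have : Ioi (1 : ℝ) ⊆ {s : ℝ | iteratedDeriv j rho s = 0} := fun r hr =>
      iteratedDeriv_rho_eq_zero j r (lt_of_lt_of_le hr (le_abs_self r))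
    have h2 := hcl.closure_subset_iff.2 this
    rw [closure_Ioi] at h2
    exact h2 h
  · have : Iio (-1 : ℝ) ⊆ {s : ℝ | iteratedDeriv j rho s = 0} := fun r hr =>
      iteratedDeriv_rho_eq_zero j r (lt_of_lt_of_le (by simp only [mem_Iio] at hr; linarith)
        (neg_le_abs r))
    have h2 := hcl.closure_subset_iff.2 this
    rw [closure_Iio] at h2
    exact h2 (show s ≤ -1 by linarith)

theorem cs_piL {l : ℝ} (hl : 0 ≤ l) : CS (piL l) := by
  refine ⟨contDiff_piL l, l + 1, fun s hs => ?_⟩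
  rcases lt_abs.1 hs with h | h
  · exact piL_of_ge hl h.le
  · exact piL_of_le hl (by linarith)

theorem Bump.Valid.cs {b : Bump} (hb : b.Valid) : CS b.eval := by
  obtain ⟨k, j | l, a, b⟩ := b
  · have ha : (a : ℝ) ≠ 0 := by exact_mod_cast hb
    exact CS.mul_left (g := fun s => s ^ k) (by fun_prop) ((cs_iteratedDeriv_rho j).affine ha b)
  · have ha : (a : ℝ) ≠ 0 := by exact_mod_cast hb.1
    have hl : (0 : ℝ) ≤ l := by exact_mod_cast hb.2.le
    exact CS.mul_left (g := fun s => s ^ k) (by fun_prop) ((cs_piL hl).affine ha b)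

/-- The derivative of a bump of the first kind. -/
theorem deriv_eval_inl (k j : ℕ) (a b : ℚ) (s : ℝ) :
    deriv (Bump.eval (k, .inl j, a, b)) s =
      k * Bump.eval (k - 1, .inl j, a, b) s + a * Bump.eval (k, .inl (j + 1), a, b) s := by
  have h1 : HasDerivAt (fun s : ℝ => (a : ℝ) * s - b) a s := by
    simpa using ((hasDerivAt_id s).const_mul (a : ℝ)).sub_const (b : ℝ)
  have h2 : HasDerivAt (iteratedDeriv j rho) (iteratedDeriv (j + 1) rho (a * s - b))
      (a * s - b) := by
    rw [iteratedDeriv_succ]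
    exact ((cs_iteratedDeriv_rho j).1.differentiable (by simp) _).hasDerivAt
  have h3 := (hasDerivAt_pow k s).mul (h2.comp s h1)
  have h4 : HasDerivAt (Bump.eval (k, .inl j, a, b)) _ s := h3
  rw [h4.deriv]
  simp only [Bump.eval, Function.comp]
  ring

/-- The derivative of a bump of the second kind. -/
theorem deriv_eval_inr (k : ℕ) (l a b : ℚ) (s : ℝ) :
    deriv (Bump.eval (k, .inr l, a, b)) s =
      k * Bump.eval (k - 1, .inr l, a, b) s + (a * Bump.eval (k, .inl 0, a, b) s +
        (-a) * Bump.eval (k, .inl 0, a, b + l) s) := by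
  have h1 : HasDerivAt (fun s : ℝ => (a : ℝ) * s - b) a s := by
    simpa using ((hasDerivAt_id s).const_mul (a : ℝ)).sub_const (b : ℝ)
  have h2 := hasDerivAt_piL l (a * s - b)
  have h3 := (hasDerivAt_pow k s).mul (h2.comp s h1)
  have h4 : HasDerivAt (Bump.eval (k, .inr l, a, b)) _ s := h3
  rw [h4.deriv]
  simp only [Bump.eval, Function.comp, iteratedDeriv_zero, Rat.cast_add, sub_sub]
  ring

/-! ## Periodization -/

theorem per_eq_sum {g : ℝ → ℝ} {R : ℝ} (hR : ∀ s, R < |s| → g s = 0) (N : ℕ) {y : ℝ}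
    (hy : |y| + R < N) : per g y = ∑ m ∈ Finset.Icc (-(N : ℤ)) N, g (y + m) := by
  unfold per
  refine tsum_eq_sum fun m hm => hR _ ?_
  rw [Finset.mem_Icc, not_and_or, not_le, not_le] at hm
  have h1 : (N : ℝ) < |(m : ℝ)| := by
    rcases hm with h | h
    · have : (m : ℝ) < -(N : ℝ) := by exact_mod_cast h
      linarith [neg_le_abs (m : ℝ)]
    · have : (N : ℝ) < m := by exact_mod_cast h
      linarith [le_abs_self (m : ℝ)]
  have h2 : |(m : ℝ)| - |y| ≤ |y + m| := by
    have := abs_sub_abs_le_abs_sub (m : ℝ) (-y)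
    rwa [abs_neg, sub_neg_eq_add, add_comm] at this
  linarith

theorem per_eventuallyEq {g : ℝ → ℝ} {R : ℝ} (hR : ∀ s, R < |s| → g s = 0) (N : ℕ) {y : ℝ}
    (hy : |y| + R < N) :
    per g =ᶠ[𝓝 y] fun y => ∑ m ∈ Finset.Icc (-(N : ℤ)) N, g (y + m) := by
  have ho : IsOpen {y : ℝ | |y| + R < N} := isOpen_lt (by fun_prop) continuous_const
  filter_upwards [ho.mem_nhds hy] with r hr using per_eq_sum hR N hr

theorem CS.summable {g : ℝ → ℝ} (hg : CS g) (y : ℝ) : Summable fun m : ℤ => g (y + m) := by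
  obtain ⟨_, R, hR⟩ := hg
  obtain ⟨N, hN⟩ := exists_nat_gt (|y| + R)
  refine summable_of_ne_finset_zero (s := Finset.Icc (-(N : ℤ)) N) fun m hm => hR _ ?_
  rw [Finset.mem_Icc, not_and_or, not_le, not_le] at hm
  have h1 : (N : ℝ) < |(m : ℝ)| := by
    rcases hm with h | h
    · have : (m : ℝ) < -(N : ℝ) := by exact_mod_cast h
      linarith [neg_le_abs (m : ℝ)]
    · have : (N : ℝ) < m := by exact_mod_cast h
      linarith [le_abs_self (m : ℝ)]
  have h2 : |(m : ℝ)| - |y| ≤ |y + m| := by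
    have := abs_sub_abs_le_abs_sub (m : ℝ) (-y)
    rwa [abs_neg, sub_neg_eq_add, add_comm] at this
  linarith

theorem CS.contDiff_per {g : ℝ → ℝ} (hg : CS g) : ContDiff ℝ ∞ (per g) := by
  obtain ⟨h1, R, hR⟩ := hg
  refine contDiff_iff_contDiffAt.2 fun y => ?_
  obtain ⟨N, hN⟩ := exists_nat_gt (|y| + R)
  refine ContDiffAt.congr_of_eventuallyEq ?_ (per_eventuallyEq hR N hN)
  exact (ContDiff.sum fun m _ => h1.comp (contDiff_id.add contDiff_const)).contDiffAt

theorem CS.hasDerivAt_per {g : ℝ → ℝ} (hg : CS g) (y : ℝ) :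
    HasDerivAt (per g) (per (_root_.deriv g) y) y := by
  obtain ⟨h1, R, hR⟩ := hg
  obtain ⟨N, hN⟩ := exists_nat_gt (|y| + R)
  rw [per_eq_sum (deriv_eq_zero_of_abs hR) N hN]
  refine HasDerivAt.congr_of_eventuallyEq ?_ (per_eventuallyEq hR N hN)
  refine HasDerivAt.fun_sum fun m _ => ?_
  exact ((h1.differentiable (by simp) _).hasDerivAt).comp_add_const y m

theorem CS.deriv_per {g : ℝ → ℝ} (hg : CS g) : _root_.deriv (per g) = per (_root_.deriv g) :=
  funext fun y => (hg.hasDerivAt_per y).deriv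

theorem per_add_int (g : ℝ → ℝ) (y : ℝ) (n : ℤ) : per g (y + n) = per g y := by
  unfold per
  rw [← (Equiv.addRight n).tsum_eq fun m : ℤ => g (y + m)]
  refine tsum_congr fun m => ?_
  simp only [Equiv.coe_addRight, Int.cast_add]
  congr 1; ring

theorem per_add_nat (g : ℝ → ℝ) (y : ℝ) (n : ℕ) : per g (y + n) = per g y := by
  exact_mod_cast per_add_int g y n

theorem per_add_one (g : ℝ → ℝ) (y : ℝ) : per g (y + 1) = per g y := by
  exact_mod_cast per_add_int g y 1

theorem per_add {g h : ℝ → ℝ} (hg : CS g) (hh : CS h) (y : ℝ) :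
    per (fun s => g s + h s) y = per g y + per h y :=
  (hg.summable y).tsum_add (hh.summable y)

theorem per_const_mul (c : ℝ) (g : ℝ → ℝ) (y : ℝ) : per (fun s => c * g s) y = c * per g y :=
  tsum_mul_left

/-- On a window of length one around the support the periodization is the function itself. -/
theorem per_eq_self {g : ℝ → ℝ} {lo hi : ℝ} (hg : ∀ s, s ≤ lo ∨ hi ≤ s → g s = 0) {y : ℝ}
    (h1 : hi - 1 ≤ y) (h2 : y ≤ lo + 1) : per g y = g y := by
  unfold per
  rw [tsum_eq_single 0]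
  · simp
  · intro m hm
    apply hg
    rcases lt_or_gt_of_ne hm with h | h
    · have : (m : ℝ) ≤ -1 := by exact_mod_cast (show m ≤ -1 by omega)
      left; linarith
    · have : (1 : ℝ) ≤ m := by exact_mod_cast (show 1 ≤ m by omega)
      right; linarith

theorem per_nonneg {g : ℝ → ℝ} (hg : ∀ s, 0 ≤ g s) (y : ℝ) : 0 ≤ per g y :=
  tsum_nonneg fun _ => hg _

/-- The derivative of a periodized bump of the first kind. -/
theorem hasDerivAt_per_inl (k j : ℕ) {a : ℚ} (ha : a ≠ 0) (b : ℚ) (y : ℝ) :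
    HasDerivAt (per (Bump.eval (k, .inl j, a, b)))
      (k * per (Bump.eval (k - 1, .inl j, a, b)) y + a * per (Bump.eval (k, .inl (j + 1), a, b)) y)
      y := by
  have h := (Bump.Valid.cs (b := (k, .inl j, a, b)) ha).hasDerivAt_per y
  rw [funext (deriv_eval_inl k j a b), per_add, per_const_mul, per_const_mul] at h
  · exact h
  · exact CS.mul_left contDiff_const (Bump.Valid.cs (b := (k - 1, .inl j, a, b)) ha)
  · exact CS.mul_left contDiff_const (Bump.Valid.cs (b := (k, .inl (j + 1), a, b)) ha)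

/-- The derivative of a periodized bump of the second kind. -/
theorem hasDerivAt_per_inr (k : ℕ) {l a : ℚ} (ha : a ≠ 0) (hl : 0 < l) (b : ℚ) (y : ℝ) :
    HasDerivAt (per (Bump.eval (k, .inr l, a, b)))
      (k * per (Bump.eval (k - 1, .inr l, a, b)) y + (a * per (Bump.eval (k, .inl 0, a, b)) y +
        (-a) * per (Bump.eval (k, .inl 0, a, b + l)) y)) y := by
  have h := (Bump.Valid.cs (b := (k, .inr l, a, b)) ⟨ha, hl⟩).hasDerivAt_per y
  have c1 := CS.mul_left (contDiff_const (c := (a : ℝ))) (Bump.Valid.cs (b := (k, .inl 0, a, b)) ha)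
  have c2 := CS.mul_left (contDiff_const (c := -(a : ℝ)))
    (Bump.Valid.cs (b := (k, .inl 0, a, b + l)) ha)
  rw [funext (deriv_eval_inr k l a b), per_add, per_add c1 c2, per_const_mul, per_const_mul,
    per_const_mul] at h
  · exact h
  · exact CS.mul_left contDiff_const (Bump.Valid.cs (b := (k - 1, .inr l, a, b)) ⟨ha, hl⟩)
  · exact c1.add c2

end Vale.Agent.P113
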