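import Mathlib.Computability.Partrec
import Mathlib.Data.Rat.Denumerable
import Mathlib.Tactic

/-! The map `(a, d) ↦ a / (d + 1)` into `ℚ` is primitive recursive for Mathlib's coding of `ℚ`. -/

namespace Vale.Agent.P113

open Encodable

/-- The pair code of a rational number: numerator and denominator. -/
def ratCode (q : ℚ) : ℕ := @encode ℚ Rat.instEncodable q

theorem ratCode_eq (q : ℚ) : ratCode q = Nat.pair (encode q.num) q.den := by
  rcases q with ⟨a, b, c, d⟩
  rfl

theorem encode_natCast_int (a : ℕ) : encode (a : ℤ) = 2 * a := by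
  show Equiv.intEquivNat (Int.ofNat a) = 2 * a
  simp only [Equiv.intEquivNat, Equiv.intEquivNatSumNat, Equiv.trans_apply,
    Equiv.natSumNatEquivNat_apply, Equiv.coe_fn_mk, Sum.elim_inl]

theorem encode_negSucc_int (a : ℕ) : encode (Int.negSucc a) = 2 * a + 1 := by
  show Equiv.intEquivNat (Int.negSucc a) = 2 * a + 1
  simp [Equiv.intEquivNat, Equiv.intEquivNatSumNat, Equiv.natSumNatEquivNat_apply]

theorem natAbs_eq_encode (z : ℤ) : z.natAbs = (encode z + 1) / 2 := by
  cases z with
  | ofNat a =>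
    have := encode_natCast_int a
    simp only [Int.ofNat_eq_natCast, Int.natAbs_natCast]
    omega
  | negSucc a =>
    rw [encode_negSucc_int, Int.natAbs_negSucc]
    omega

theorem mem_range_ratCode (n : ℕ) :
    n ∈ Set.range ratCode ↔ 0 < n.unpair.2 ∧ Nat.gcd ((n.unpair.1 + 1) / 2) n.unpair.2 = 1 := by
  constructor
  · rintro ⟨q, rfl⟩
    rw [ratCode_eq, Nat.unpair_pair]
    refine ⟨q.den_pos, ?_⟩
    simp only
    rw [← natAbs_eq_encode]
    exact q.reduced
  · rintro ⟨h1, h2⟩
    refine ⟨⟨Denumerable.ofNat ℤ n.unpair.1, n.unpair.2, h1.ne', ?_⟩, ?_⟩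
    · rw [natAbs_eq_encode]
      have : encode (Denumerable.ofNat ℤ n.unpair.1) = n.unpair.1 := Denumerable.encode_ofNat _
      rw [this]
      exact h2
    · rw [ratCode_eq]
      have : encode (Denumerable.ofNat ℤ n.unpair.1) = n.unpair.1 := Denumerable.encode_ofNat _
      simp only [this, Nat.pair_unpair]

open Classical in
theorem encode_rat_eq (q : ℚ) :
    @encode ℚ (Primcodable.toEncodable) q =
      ((List.range (ratCode q)).filter (fun n => decide (n ∈ Set.range ratCode))).length := by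
  rw [← List.countP_eq_length_filter]
  have : @encode ℚ (Primcodable.toEncodable) q =
      (List.range (ratCode q)).countP
        (fun n => @decide (n ∈ Set.range ratCode) (@decidableRangeEncode ℚ Rat.instEncodable n)) := rfl
  rw [this]
  congr 1
  funext n
  congr 1

theorem gcd_eq_findGreatest (a b : ℕ) (hb : 0 < b) :
    Nat.gcd a b = Nat.findGreatest (fun d => a % d = 0 ∧ b % d = 0) b := by
  symm
  rw [Nat.findGreatest_eq_iff]
  refine ⟨Nat.gcd_le_right _ hb, fun _ => ⟨Nat.mod_eq_zero_of_dvd (Nat.gcd_dvd_left _ _),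
    Nat.mod_eq_zero_of_dvd (Nat.gcd_dvd_right _ _)⟩, fun n hn _ h => ?_⟩
  have : n ∣ Nat.gcd a b := Nat.dvd_gcd (Nat.dvd_of_mod_eq_zero h.1) (Nat.dvd_of_mod_eq_zero h.2)
  exact absurd (Nat.le_of_dvd (Nat.gcd_pos_of_pos_right _ hb) this) (not_le.2 hn)

theorem primrec_gcd : Primrec₂ Nat.gcd := by
  have h : Primrec fun p : ℕ × ℕ =>
      Nat.findGreatest (fun d => p.1 % d = 0 ∧ p.2 % d = 0) p.2 := by
    refine Primrec.nat_findGreatest Primrec.snd ?_
    refine PrimrecPred.primrecRel (p := fun z : (ℕ × ℕ) × ℕ => z.1.1 % z.2 = 0 ∧ z.1.2 % z.2 = 0) ?_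
    exact (Primrec.eq.comp (Primrec.nat_mod.comp (Primrec.fst.comp Primrec.fst) Primrec.snd)
      (Primrec.const 0)).and (Primrec.eq.comp
        (Primrec.nat_mod.comp (Primrec.snd.comp Primrec.fst) Primrec.snd) (Primrec.const 0))
  have h2 : Primrec fun p : ℕ × ℕ => if p.2 = 0 then p.1 else
      Nat.findGreatest (fun d => p.1 % d = 0 ∧ p.2 % d = 0) p.2 :=
    Primrec.ite (Primrec.eq.comp Primrec.snd (Primrec.const 0)) Primrec.fst h
  refine h2.of_eq fun p => ?_
  split_ifs with h0
  · simp [h0]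
  · exact (gcd_eq_findGreatest _ _ (Nat.pos_of_ne_zero h0)).symm

theorem primrecPred_range_ratCode : PrimrecPred fun n => n ∈ Set.range ratCode := by
  have h1 : Primrec fun n : ℕ => n.unpair.1 := Primrec.fst.comp Primrec.unpair
  have h2 : Primrec fun n : ℕ => n.unpair.2 := Primrec.snd.comp Primrec.unpair
  refine PrimrecPred.of_eq ?_ fun n => (mem_range_ratCode n).symm
  exact (Primrec.nat_lt.comp (Primrec.const 0) h2).and
    (Primrec.eq.comp (primrec_gcd.comp (Primrec.nat_div.comp
      (Primrec.succ.comp h1) (Primrec.const 2)) h2) (Primrec.const 1))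

/-- A function into `ℚ` is primitive recursive as soon as its pair code is. -/
theorem primrec_of_ratCode {α : Type*} [Primcodable α] {f : α → ℚ}
    (h : Primrec fun a => ratCode (f a)) : Primrec f := by
  classical
  rw [← Primrec.encode_iff]
  refine Primrec.of_eq ?_ fun a => (encode_rat_eq (f a)).symm
  exact Primrec.list_length.comp
    ((Primrec.listFilter primrecPred_range_ratCode).comp (Primrec.list_range.comp h))

theorem ratCode_div (a d : ℕ) : ratCode ((a : ℚ) / (d + 1)) =
    Nat.pair (2 * (a / Nat.gcd (d + 1) a)) ((d + 1) / Nat.gcd (d + 1) a) := by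
  have : ((a : ℚ) / (d + 1)) = mkRat a (d + 1) := by
    rw [Rat.mkRat_eq_div]; push_cast; rfl
  rw [this, ratCode_eq, Rat.num_mkRat, Rat.den_mkRat]
  simp only [Nat.add_eq_zero_iff, one_ne_zero, and_false, if_false, Int.natAbs_natCast]
  rw [← encode_natCast_int]
  push_cast
  rfl

/-- `(a, d) ↦ a / (d + 1)` is primitive recursive into Mathlib's coding of `ℚ`. -/
theorem primrec_natDiv : Primrec₂ fun a d : ℕ => ((a : ℚ) / (d + 1)) := by
  refine primrec_of_ratCode (f := fun p : ℕ × ℕ => ((p.1 : ℚ) / (p.2 + 1))) ?_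
  refine Primrec.of_eq ?_ fun p => (ratCode_div p.1 p.2).symm
  have hs : Primrec fun p : ℕ × ℕ => p.2 + 1 := Primrec.succ.comp Primrec.snd
  have hg : Primrec fun p : ℕ × ℕ => Nat.gcd (p.2 + 1) p.1 := primrec_gcd.comp hs Primrec.fst
  exact Primrec₂.natPair.comp
    (Primrec.nat_mul.comp (Primrec.const 2) (Primrec.nat_div.comp Primrec.fst hg))
    (Primrec.nat_div.comp hs hg)

end Vale.Agent.P113
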