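import Vale.Agent.P113.Garbage
import Mathlib.Data.Real.Basic
import Mathlib.Data.Fintype.Sum
import Mathlib.Data.Fintype.Option
import Mathlib.Data.Fintype.EquivFin
import Mathlib.Logic.Equiv.Basic
import Mathlib.Order.Interval.Set.Defs
import Mathlib.Tactic.Linarith
import Mathlib.Tactic.FieldSimp
import Mathlib.Tactic.Positivity
import Mathlib.Tactic.Ring

/-! From an r.e. predicate to a system of three grid-affine shears. -/

namespace Vale.Agent.P113

open Turing StateTransition Set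

/-- `v` is the value at `(s,t)` of the affine function that the table `T` attaches to the cell of
the `N x N` grid whose lower left quarter contains `(s,t)`. -/
def CellAff (N : ℕ) (T : ℕ → ℕ → ℚ × ℚ × ℚ) (s t v : ℝ) : Prop :=
  ∃ m1 m2 : ℕ, m1 < N ∧ m2 < N ∧ (N : ℝ) * s - m1 ∈ Icc (0 : ℝ) (1 / 2) ∧
    (N : ℝ) * t - m2 ∈ Icc (0 : ℝ) (1 / 2) ∧
    v = (T m1 m2).1 + (T m1 m2).2.1 * s + (T m1 m2).2.2 * t

/-- Real number coded by a list of digits in base `B`. -/
noncomputable def encD (B : ℕ) : List ℕ → ℝ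
  | [] => 0
  | d :: l => (d + encD B l) / B

theorem encD_mem (D : ℕ) (l : List ℕ) (hl : ∀ d ∈ l, d < D) :
    encD (2 * D) l ∈ Icc (0 : ℝ) (1 / 2) := by
  induction l with
  | nil => exact ⟨le_rfl, by simp [encD]⟩
  | cons d l ih =>
    obtain ⟨h0, h1⟩ := ih fun e he => hl e (List.mem_cons_of_mem _ he)
    have hd : d < D := hl d List.mem_cons_self
    have hd' : (d : ℝ) + 1 ≤ D := by exact_mod_cast hd
    have hd0 : (0 : ℝ) ≤ d := Nat.cast_nonneg d
    have hB : (0 : ℝ) < ((2 * D : ℕ) : ℝ) := by push_cast; linarith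
    refine ⟨div_nonneg (by linarith) hB.le, ?_⟩
    show ((d : ℝ) + encD (2 * D) l) / ((2 * D : ℕ) : ℝ) ≤ 1 / 2
    rw [div_le_iff₀ hB]
    push_cast
    linarith

/-- Numerator and denominator of a coded number. -/
def numDen (B : ℕ) (l : List ℕ) : ℕ × ℕ :=
  l.foldr (fun d z => (d * z.2 + z.1, B * z.2)) (0, 1)

theorem numDen_pos {B : ℕ} (hB : 0 < B) (l : List ℕ) : 0 < (numDen B l).2 := by
  induction l with
  | nil => exact Nat.one_pos
  | cons d l ih => exact Nat.mul_pos hB ih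

theorem encD_eq {B : ℕ} (hB : 0 < B) (l : List ℕ) :
    encD B l = ((numDen B l).1 : ℝ) / (numDen B l).2 := by
  induction l with
  | nil => simp [encD, numDen]
  | cons d l ih =>
    have h1 : ((numDen B l).2 : ℝ) ≠ 0 := by exact_mod_cast (numDen_pos hB l).ne'
    have h2 : (B : ℝ) ≠ 0 := by exact_mod_cast hB.ne'
    show ((d : ℝ) + encD B l) / B =
      ((d * (numDen B l).2 + (numDen B l).1 : ℕ) : ℝ) / ((B * (numDen B l).2 : ℕ) : ℝ)
    rw [ih]
    push_cast
    field_simp

theorem primrec_numDen (B : ℕ) : Primrec (numDen B) := by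
  refine Primrec.list_foldr (f := fun l : List ℕ => l) (g := fun _ => ((0, 1) : ℕ × ℕ))
    (h := fun _ x => (x.1 * x.2.2 + x.2.1, B * x.2.2)) Primrec.id (Primrec.const _) ?_
  refine Primrec.pair ?_ ?_
  · exact Primrec.nat_add.comp
      (Primrec.nat_mul.comp (Primrec.fst.comp Primrec.snd)
        (Primrec.snd.comp (Primrec.snd.comp Primrec.snd)))
      (Primrec.fst.comp (Primrec.snd.comp Primrec.snd))
  · exact Primrec.nat_mul.comp (Primrec.const B) (Primrec.snd.comp (Primrec.snd.comp Primrec.snd))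

theorem exists_digits (α : Type) [Fintype α] (a₀ : α) :
    ∃ (D : ℕ) (dig : α → ℕ), Function.Injective dig ∧ dig a₀ = 0 ∧ ∀ a, dig a < D := by
  classical
  let e := Fintype.equivFin α
  have hpos : 0 < Fintype.card α := Fintype.card_pos_iff.2 ⟨a₀⟩
  let e' := e.trans (Equiv.swap (e a₀) ⟨0, hpos⟩)
  refine ⟨Fintype.card α, fun a => (e' a : ℕ), fun a b h => e'.injective (Fin.ext h), ?_,
    fun a => (e' a).2⟩
  simp [e']

section Code

variable {Γ Λ : Type} [Inhabited Γ] (D : ℕ) (dig : GSym Γ Λ → ℕ)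

/-- The point coding a stack. -/
noncomputable def enc (l : List (GSym Γ Λ)) : ℝ := encD (2 * D) (l.map dig)

/-- The grid cell (three top digits) of a stack. -/
def cell (l : List (GSym Γ Λ)) : ℕ :=
  dig (hd l) * (2 * D) ^ 2 + dig (hd l.tail) * (2 * D) + dig (hd l.tail.tail)

variable {D dig}

omit [Inhabited Γ] in
theorem enc_mem (hlt : ∀ a, dig a < D) (l : List (GSym Γ Λ)) :
    enc D dig l ∈ Icc (0 : ℝ) (1 / 2) :=
  encD_mem D _ fun d hd => by
    obtain ⟨a, _, rfl⟩ := List.mem_map.1 hd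
    exact hlt a

omit [Inhabited Γ] in
theorem enc_cons (a : GSym Γ Λ) (l : List (GSym Γ Λ)) :
    enc D dig (a :: l) = (dig a + enc D dig l) / ((2 * D : ℕ) : ℝ) := rfl

theorem enc_tail (hD : 0 < D) (h0 : dig (Sum.inl default) = 0) (l : List (GSym Γ Λ)) :
    enc D dig l.tail = ((2 * D : ℕ) : ℝ) * enc D dig l - dig (hd l) := by
  have hB : ((2 * D : ℕ) : ℝ) ≠ 0 := by exact_mod_cast (by omega : 2 * D ≠ 0)
  cases l with
  | nil => simp [enc, encD, hd, h0]
  | cons a l =>
    rw [enc_cons]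
    simp only [hd, List.tail_cons, List.headD_cons]
    field_simp
    ring

theorem cell_lt (hlt : ∀ a, dig a < D) (l : List (GSym Γ Λ)) : cell D dig l < (2 * D) ^ 3 := by
  have h1 := hlt (hd l)
  have h2 := hlt (hd l.tail)
  have h3 := hlt (hd l.tail.tail)
  unfold cell
  nlinarith [Nat.mul_le_mul_right ((2 * D) ^ 2) h1, Nat.mul_le_mul_right (2 * D) h2,
    Nat.zero_le (D ^ 3), Nat.zero_le (D ^ 2), Nat.mul_le_mul_right (D ^ 2) h1]

theorem cell_spec (hD : 0 < D) (h0 : dig (Sum.inl default) = 0) (l : List (GSym Γ Λ)) :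
    (((2 * D) ^ 3 : ℕ) : ℝ) * enc D dig l - cell D dig l = enc D dig l.tail.tail.tail := by
  rw [enc_tail hD h0, enc_tail hD h0, enc_tail hD h0]
  unfold cell
  push_cast
  ring

theorem cell_mem (hlt : ∀ a, dig a < D) (h0 : dig (Sum.inl default) = 0) (l : List (GSym Γ Λ)) :
    (((2 * D) ^ 3 : ℕ) : ℝ) * enc D dig l - cell D dig l ∈ Icc (0 : ℝ) (1 / 2) := by
  have hD : 0 < D := lt_of_le_of_lt (Nat.zero_le _) (hlt (Sum.inl default))
  rw [cell_spec hD h0]
  exact enc_mem hlt _

theorem cell_digits (hlt : ∀ a, dig a < D) (l : List (GSym Γ Λ)) :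
    cell D dig l / (2 * D) / (2 * D) = dig (hd l) ∧
    cell D dig l / (2 * D) % (2 * D) = dig (hd l.tail) ∧
    cell D dig l % (2 * D) = dig (hd l.tail.tail) := by
  have h2 : dig (hd l.tail) < 2 * D := by have := hlt (hd l.tail); omega
  have h3 : dig (hd l.tail.tail) < 2 * D := by have := hlt (hd l.tail.tail); omega
  have hB : 0 < 2 * D := by omega
  have e : cell D dig l = dig (hd l.tail.tail) +
      (2 * D) * (dig (hd l.tail) + (2 * D) * dig (hd l)) := by unfold cell; ring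
  have e1 : cell D dig l / (2 * D) = dig (hd l.tail) + (2 * D) * dig (hd l) := by
    rw [e, Nat.add_mul_div_left _ _ hB, Nat.div_eq_of_lt h3, Nat.zero_add]
  refine ⟨?_, ?_, ?_⟩
  · rw [e1, Nat.add_mul_div_left _ _ hB, Nat.div_eq_of_lt h2, Nat.zero_add]
  · rw [e1, Nat.add_mul_mod_self_left, Nat.mod_eq_of_lt h2]
  · rw [e, Nat.add_mul_mod_self_left, Nat.mod_eq_of_lt h3]

end Code

section Tables

variable {Γ Λ : Type} [Inhabited Γ] [Inhabited Λ] (M : TM0.Machine Γ Λ) (D : ℕ)
  (dig : GSym Γ Λ → ℕ) (und : ℕ → GSym Γ Λ)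

/-- The control written in a symbol. -/
def ctlOf : GSym Γ Λ → Ctl Λ
  | Sum.inl _ => default
  | Sum.inr g => g.1

/-- The three digits pushed by a rule. -/
def pushed (μ : Ctl Λ) (s : GSym Γ Λ) : ℕ :=
  dig (Sum.inr ((act M μ s).1, none)) * (2 * D) ^ 2 + dig (act M μ s).2.1 * (2 * D) +
    dig (act M μ s).2.2.1

open Classical in
/-- First table as a function of the rule. -/
noncomputable def rule1 (μ : Ctl Λ) (s : GSym Γ Λ) : ℚ × ℚ × ℚ :=
  if HaltRule M μ s then (3 / 4, 0, 0) else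
    bif (act M μ s).2.2.2 then
      ((pushed M D dig μ s : ℚ) / (2 * D) ^ 3, 1 / (2 * D) ^ 3, 0)
    else (((pushed M D dig μ s : ℚ) - dig s) / (2 * D) ^ 3, 0, 1 / (2 * D) ^ 2)

/-- Second table as a function of the rule. -/
def rule2 (μ : Ctl Λ) (s : GSym Γ Λ) : ℚ × ℚ × ℚ :=
  bif (act M μ s).2.2.2 then ((pushed M D dig μ s : ℚ) - dig s, 2 * D, -(2 * D) ^ 3)
  else (0, 0, 0)

/-- Third table as a function of the rule. -/
def rule3 (μ : Ctl Λ) (s : GSym Γ Λ) : ℚ × ℚ × ℚ :=
  bif (act M μ s).2.2.2 then (-(dig s : ℚ) / (2 * D), 1 - 1 / (2 * D), 0)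
  else (((pushed M D dig μ s : ℚ) - dig s) / (2 * D), 1, -(2 * D) ^ 2)

/-- The rule decoded from the cell of the new first stack. -/
def prevRule (m : ℕ) : Ctl Λ × GSym Γ Λ :=
  gdecode (und (m / (2 * D) % (2 * D))) (und (m % (2 * D)))

/-- First table. -/
noncomputable def table1 (m1 m2 : ℕ) : ℚ × ℚ × ℚ :=
  rule1 M D dig (ctlOf (und (m1 / (2 * D) / (2 * D)))) (und (m2 / (2 * D) / (2 * D)))

/-- Second table. -/
def table2 (_m1 m2 : ℕ) : ℚ × ℚ × ℚ :=
  rule2 M D dig (prevRule D und m2).1 (prevRule D und m2).2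

/-- Third table. -/
def table3 (_m1 m2 : ℕ) : ℚ × ℚ × ℚ :=
  rule3 M D dig (prevRule D und m2).1 (prevRule D und m2).2

variable {M D dig und}

theorem table1_cell (hlt : ∀ a, dig a < D) (hu : ∀ a, und (dig a) = a) (c : GC Γ Λ) :
    table1 M D dig und (cell D dig c.full) (cell D dig c.Y) = rule1 M D dig c.μ (hd c.Y) := by
  unfold table1
  rw [(cell_digits hlt _).1, (cell_digits hlt _).1, hu, hu]
  rfl

theorem prevRule_cell (hlt : ∀ a, dig a < D) (hu : ∀ a, und (dig a) = a) (c : GC Γ Λ) :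
    prevRule D und (cell D dig (gstep M c).full) = (c.μ, hd c.Y) := by
  unfold prevRule
  rw [(cell_digits hlt _).2.1, (cell_digits hlt _).2.2, hu, hu]
  exact gdecode_act M c.μ (hd c.Y)

theorem enc_step_full (hD : 0 < D) (c : GC Γ Λ) :
    enc D dig (gstep M c).full = (pushed M D dig c.μ (hd c.Y) +
      enc D dig (bif (act M c.μ (hd c.Y)).2.2.2 then c.full else c.Y.tail)) / (2 * D) ^ 3 := by
  have hB : (D : ℝ) ≠ 0 := by exact_mod_cast hD.ne'
  show enc D dig (_ :: _ :: _ :: _) = _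
  rw [enc_cons, enc_cons, enc_cons]
  unfold pushed
  push_cast
  field_simp
  simp only [gstep]
  ring

theorem shear_step (hlt : ∀ a, dig a < D) (h0 : dig (Sum.inl default) = 0)
    (hu : ∀ a, und (dig a) = a) (c : GC Γ Λ) :
    (HaltRule M c.μ (hd c.Y) →
      CellAff ((2 * D) ^ 3) (table1 M D dig und) (enc D dig c.full) (enc D dig c.Y) (3 / 4)) ∧
    (¬ HaltRule M c.μ (hd c.Y) →
      CellAff ((2 * D) ^ 3) (table1 M D dig und) (enc D dig c.full) (enc D dig c.Y)
        (enc D dig (gstep M c).full) ∧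
      CellAff ((2 * D) ^ 3) (table2 M D dig und) (enc D dig c.Y) (enc D dig (gstep M c).full)
        (enc D dig (gstep M c).Y - enc D dig c.full) ∧
      CellAff ((2 * D) ^ 3) (table3 M D dig und) (enc D dig (gstep M c).Y)
        (enc D dig (gstep M c).full) (enc D dig (gstep M c).Y - enc D dig c.Y)) := by
  have hD : 0 < D := lt_of_le_of_lt (Nat.zero_le _) (hlt (Sum.inl default))
  have hB : (D : ℝ) ≠ 0 := by exact_mod_cast hD.ne'
  have hx := enc_step_full (M := M) (dig := dig) hD c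
  have ht := enc_tail hD h0 c.Y
  have hy : enc D dig (gstep M c).Y =
      enc D dig (bif (act M c.μ (hd c.Y)).2.2.2 then c.Y.tail else c.full) := rfl
  refine ⟨fun h => ?_, fun h => ⟨?_, ?_, ?_⟩⟩
  · refine ⟨_, _, cell_lt hlt _, cell_lt hlt _, cell_mem hlt h0 _, cell_mem hlt h0 _, ?_⟩
    rw [table1_cell hlt hu, rule1, if_pos h]
    norm_num
  · refine ⟨_, _, cell_lt hlt _, cell_lt hlt _, cell_mem hlt h0 _, cell_mem hlt h0 _, ?_⟩
    rw [table1_cell hlt hu, rule1, if_neg h, hx]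
    cases (act M c.μ (hd c.Y)).2.2.2
    · simp only [cond_false, ht]
      push_cast
      field_simp
      ring
    · simp only [cond_true]
      push_cast
      field_simp
      ring
  · refine ⟨_, _, cell_lt hlt _, cell_lt hlt _, cell_mem hlt h0 _, cell_mem hlt h0 _, ?_⟩
    rw [table2, prevRule_cell hlt hu, rule2, hx, hy]
    cases (act M c.μ (hd c.Y)).2.2.2
    · simp only [cond_false]
      push_cast
      ring
    · simp only [cond_true, ht]
      push_cast
      field_simp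
      ring
  · refine ⟨_, _, cell_lt hlt _, cell_lt hlt _, cell_mem hlt h0 _, cell_mem hlt h0 _, ?_⟩
    rw [table3, prevRule_cell hlt hu, rule3, hx, hy]
    cases (act M c.μ (hd c.Y)).2.2.2
    · simp only [cond_false, ht]
      push_cast
      field_simp
      ring
    · simp only [cond_true, ht]
      push_cast
      field_simp
      ring

end Tables

theorem exists_shear_system (p : ℕ → Prop) (hp : REPred p) :
    ∃ (N : ℕ) (T1 T2 T3 : ℕ → ℕ → ℚ × ℚ × ℚ) (A B D : ℕ → ℕ),
      Computable A ∧ Computable B ∧ Computable D ∧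
      ∀ n, ∃ (x y : ℕ → ℝ) (halt : ℕ → Prop),
        x 0 = A n / (D n + 1) ∧ y 0 = B n / (D n + 1) ∧
        (∀ k, x k ∈ Icc (0 : ℝ) (1 / 2) ∧ y k ∈ Icc (0 : ℝ) (1 / 2)) ∧
        ((∃ k, halt k) ↔ p n) ∧
        ∀ k, (halt k → CellAff N T1 (x k) (y k) (3 / 4)) ∧
          (¬ halt k → CellAff N T1 (x k) (y k) (x (k + 1)) ∧
            CellAff N T2 (y k) (x (k + 1)) (y (k + 1) - x k) ∧
            CellAff N T3 (y (k + 1)) (x (k + 1)) (y (k + 1) - y k)) := by
  classical
  obtain ⟨Γ, Λ, i1, i2, i3, i4, M, inp, hinp, hM⟩ := exists_tm0 p hp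
  obtain ⟨D, dig, hinj, h0, hlt⟩ := exists_digits (GSym Γ Λ) (Sum.inl default)
  have hD : 0 < D := lt_of_le_of_lt (Nat.zero_le _) (hlt (Sum.inl default))
  have hB : 0 < 2 * D := by omega
  let und : ℕ → GSym Γ Λ := Function.invFun dig
  have hu : ∀ a, und (dig a) = a := Function.leftInverse_invFun hinj
  let nd : ℕ → ℕ × ℕ := fun n => numDen (2 * D) ((inp n).map fun a => dig (Sum.inl a))
  have hnd : Computable nd := (primrec_numDen (2 * D)).to_comp.comp (hinp _)
  let d0 : ℕ := dig (Sum.inr (((default : Λ), true, false), none))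
  refine ⟨(2 * D) ^ 3, table1 M D dig und, table2 M D dig und, table3 M D dig und,
    fun n => d0 * (nd n).2, fun n => 2 * D * (nd n).1, fun n => 2 * D * (nd n).2 - 1,
    ?_, ?_, ?_, fun n => ?_⟩
  · exact Primrec.nat_mul.to_comp.comp (Computable.const d0) (Computable.snd.comp hnd)
  · exact Primrec.nat_mul.to_comp.comp (Computable.const _) (Computable.fst.comp hnd)
  · exact Primrec.nat_sub.to_comp.comp
      (Primrec.nat_mul.to_comp.comp (Computable.const _) (Computable.snd.comp hnd))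
      (Computable.const 1)
  · let c : ℕ → GC Γ Λ := fun k => (gstep M)^[k] (ginit (inp n))
    have hc : ∀ k, c (k + 1) = gstep M (c k) := fun k => Function.iterate_succ_apply' _ _ _
    have hpos : 0 < (nd n).2 := numDen_pos hB _
    have hden : (((2 * D * (nd n).2 - 1 : ℕ) : ℝ) + 1) = 2 * D * (nd n).2 := by
      have : 2 * D * (nd n).2 - 1 + 1 = 2 * D * (nd n).2 :=
        Nat.sub_add_cancel (Nat.mul_pos hB hpos)
      exact_mod_cast this
    have hD' : (D : ℝ) ≠ 0 := by exact_mod_cast hD.ne'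
    have hpos' : ((nd n).2 : ℝ) ≠ 0 := by exact_mod_cast hpos.ne'
    refine ⟨fun k => enc D dig (c k).full, fun k => enc D dig (c k).Y,
      fun k => HaltRule M (c k).μ (hd (c k).Y), ?_, ?_, fun k => ⟨enc_mem hlt _, enc_mem hlt _⟩,
      ?_, fun k => ?_⟩
    · show ((d0 : ℝ) + 0) / ((2 * D : ℕ) : ℝ) = _
      rw [hden]
      push_cast
      field_simp
      ring
    · show encD (2 * D) (((inp n).map Sum.inl).map dig) = _
      rw [List.map_map, hden, encD_eq hB]
      show ((nd n).1 : ℝ) / (nd n).2 = _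
      push_cast
      field_simp
    · rw [← hM, ← cfgOf_ginit]
      exact halts_iff M _
    · simp only [hc]
      exact shear_step hlt h0 hu (c k)

end Vale.Agent.P113
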