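import Vale.Agent.P113.HaltRE
import Vale.Agent.P113.Shear
import Vale.Agent.P113.RatPrim

/-! The force compiler: a fixed list of periodic terms and one loading term. -/

namespace Vale.Agent.P113

open Set

/-- The term `q κ^n g(t)`. -/
def loadTerm (n : ℤ) (g : Bump) (q : ℚ) : Term := ((q, 0, n, []), ([g], []), fun _ => [])

theorem loadTerm_eval (n : ℤ) (g : Bump) (q : ℚ) (ν t : ℝ) (x : R3) :
    (loadTerm n g q).eval ν t x = q * kappa ^ n * g.eval t := by
  simp [loadTerm, Term.eval, perProd]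

theorem primrec_loadTerm (n : ℤ) (g : Bump) : Primrec (loadTerm n g) :=
  (Primrec.id.pair (Primrec.const ((0 : ℕ), n, ([] : List ℚ)))).pair
    (Primrec.const ((([g], []) : List Bump × List Bump), fun _ : Fin 3 => ([] : List Bump)))

theorem primrec_loadList (L : Fin 3 → List Term) (n : ℤ) (g : Bump) :
    Primrec fun (z : ℚ × ℚ × ℚ) (i : Fin 3) => loadTerm n g (![z.1, z.2.1, z.2.2] i) :: L i := by
  rw [Primrec.fin_curry]
  refine Primrec₂.swap (f := fun (i : Fin 3) (z : ℚ × ℚ × ℚ) =>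
    loadTerm n g (![z.1, z.2.1, z.2.2] i) :: L i) ?_
  rw [Primrec.fin_curry₁]
  intro i
  refine Primrec.list_cons.comp ((primrec_loadTerm n g).comp ?_) (Primrec.const _)
  fin_cases i
  · exact Primrec.fst
  · exact Primrec.fst.comp Primrec.snd
  · exact Primrec.snd.comp Primrec.snd

theorem exists_compiler (L : Fin 3 → List Term) (hv : ∀ i, ∀ τ ∈ L i, τ.Valid)
    (hp : ∀ i, ∀ τ ∈ L i, τ.periodic = true) (c : Input → Fin 3 → ℚ)
    (hc : ∀ i, Computable fun z => c z i) (n : ℤ) (g : Bump) (hg : g.Valid) (T₀ : ℝ)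
    (hT : ∀ t, T₀ ≤ t → g.eval t = 0) :
    ∃ C : Input → Fin 3 → List Term, (∀ ν, IsCompiler ν C) ∧
      ∀ (ν : ℝ) z i t x, ((C z i).map fun τ => τ.eval ν t x).sum =
        c z i * kappa ^ n * g.eval t + ((L i).map fun τ => τ.eval ν t x).sum := by
  refine ⟨fun z i => loadTerm n g (c z i) :: L i, fun ν => ⟨?_, ?_, ⟨T₀, ?_⟩, ?_⟩, ?_⟩
  · have h := (primrec_loadList L n g).to_comp.comp ((hc 0).pair ((hc 1).pair (hc 2)))
    refine h.of_eq fun z => ?_
    funext i
    fin_cases i <;> rfl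
  · intro M w i τ hτ
    rcases List.mem_cons.1 hτ with rfl | h
    · refine ⟨by simp, ?_, by simp, by simp⟩
      intro b hb
      rw [List.mem_singleton.1 hb]
      exact hg
    · exact hv i τ h
  · intro M w i τ hτ hper t ht x
    rcases List.mem_cons.1 hτ with rfl | h
    · rw [loadTerm_eval, hT t ht, mul_zero]
    · rw [hp i τ h] at hper
      cases hper
  · intro M w w' i
    have e : ∀ q : ℚ, Term.periodic (loadTerm n g q) = false := fun _ => rfl
    simp only [List.filter_cons, e, Bool.false_eq_true, if_false]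
  · intro ν z i t x
    rw [List.map_cons, List.sum_cons, loadTerm_eval]

/-- The shear system for the halting problem of the machines of the statement. -/
theorem exists_shear_input :
    ∃ (N : ℕ) (T1 T2 T3 : ℕ → ℕ → ℚ × ℚ × ℚ) (x₀ y₀ : Input → ℚ),
      (∀ K : ℕ, Computable fun z => (K : ℚ) * x₀ z) ∧ (∀ K : ℕ, Computable fun z => (K : ℚ) * y₀ z) ∧
      ∀ (M : Machine) (w : List (Fin M.nS)), ∃ (x y : ℕ → ℝ) (halt : ℕ → Prop),
        x 0 = x₀ (M.input w) ∧ y 0 = y₀ (M.input w) ∧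
        (∀ k, x k ∈ Icc (0 : ℝ) (1 / 2) ∧ y k ∈ Icc (0 : ℝ) (1 / 2)) ∧
        ((∃ k, halt k) ↔ M.Halts w) ∧
        ∀ k, (halt k → CellAff N T1 (x k) (y k) (3 / 4)) ∧
          (¬ halt k → CellAff N T1 (x k) (y k) (x (k + 1)) ∧
            CellAff N T2 (y k) (x (k + 1)) (y (k + 1) - x k) ∧
            CellAff N T3 (y (k + 1)) (x (k + 1)) (y (k + 1) - y k)) := by
  obtain ⟨p, hp, hM⟩ := exists_re_halts
  obtain ⟨N, T1, T2, T3, A, B, D, hA, hB, hD, h⟩ := exists_shear_system p hp
  have key : ∀ A : ℕ → ℕ, Computable A → ∀ K : ℕ, Computable fun z : Input =>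
      (K : ℚ) * ((A (Encodable.encode z) : ℚ) / (D (Encodable.encode z) + 1)) := by
    intro A hA K
    have h1 : Computable fun n : ℕ => (((K * A n : ℕ) : ℚ) / (D n + 1)) :=
      primrec_natDiv.to_comp.comp (Primrec.nat_mul.to_comp.comp (Computable.const K) hA) hD
    refine (h1.comp Computable.encode).of_eq fun z => ?_
    push_cast
    ring
  refine ⟨N, T1, T2, T3, fun z => (A (Encodable.encode z) : ℚ) / (D (Encodable.encode z) + 1),
    fun z => (B (Encodable.encode z) : ℚ) / (D (Encodable.encode z) + 1), key A hA, key B hB,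
    fun M w => ?_⟩
  obtain ⟨x, y, halt, h1, h2, h3, h4, h5⟩ := h (Encodable.encode (M.input w))
  refine ⟨x, y, halt, ?_, ?_, h3, h4.trans (hM M w), h5⟩
  · rw [h1]; push_cast; rfl
  · rw [h2]; push_cast; rfl

end Vale.Agent.P113
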