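import Mathlib.Analysis.Calculus.ContDiff.Defs
import Mathlib.Analysis.Calculus.IteratedDeriv.Defs
import Mathlib.Analysis.SpecialFunctions.Log.Basic
import Mathlib.Computability.Partrec
import Mathlib.Data.Rat.Denumerable
import Mathlib.MeasureTheory.Constructions.Pi
import Mathlib.MeasureTheory.Integral.Bochner.Set
import Mathlib.MeasureTheory.Integral.IntervalIntegral.Periodic

/-! # The objects of the problem

Forced Navier-Stokes equations on the flat torus, one-tape Turing machines, admissible terms and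
force compilers. -/

open Set MeasureTheory
open scoped ContDiff

namespace Vale.Agent.P113

/-! ## The torus, classical solutions, trajectories -/

/-- `ℝ³`. -/
abbrev R3 := Fin 3 → ℝ

/-- The flat torus `(ℝ/ℤ)³`, with its Lebesgue (Haar) measure of total mass one. -/
abbrev T3 := Fin 3 → UnitAddCircle

/-- The projection `ℝ³ → (ℝ/ℤ)³`. -/
def proj (x : R3) : T3 := fun i => (x i : UnitAddCircle)

/-- The values of `g` at time `t` on the line through `x` in the direction of the `j`-th
coordinate. -/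
def line (j : Fin 3) (g : ℝ → T3 → ℝ) (t : ℝ) (x : T3) (s : ℝ) : ℝ :=
  g t (x + proj (Pi.single j s))

/-- The spatial derivative `∂_j g`. -/
noncomputable def dx (j : Fin 3) (g : ℝ → T3 → ℝ) (t : ℝ) (x : T3) : ℝ :=
  deriv (line j g t x) 0

/-- The time derivative `∂_t g` on `[0,T]` (one-sided at `0` and `T`). -/
noncomputable def dt (T : ℝ) (g : ℝ → T3 → ℝ) (t : ℝ) (x : T3) : ℝ :=
  derivWithin (fun s => g s x) (Icc 0 T) t

/-- `g` is continuous on `[0,T] × 𝕋³`. -/
def Cont (T : ℝ) (g : ℝ → T3 → ℝ) : Prop :=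
  ContinuousOn (fun z : ℝ × T3 => g z.1 z.2) (Icc 0 T ×ˢ univ)

/-- The derivatives `∂_j g` exist at every point of `[0,T] × 𝕋³` and are continuous there. -/
def HasDx (T : ℝ) (g : ℝ → T3 → ℝ) : Prop :=
  ∀ j, (∀ t ∈ Icc 0 T, ∀ x, DifferentiableAt ℝ (line j g t x) 0) ∧ Cont T (dx j g)

/-- The derivative `∂_t g` exists at every point of `[0,T] × 𝕋³` and is continuous there. -/
def HasDt (T : ℝ) (g : ℝ → T3 → ℝ) : Prop :=
  (∀ t ∈ Icc 0 T, ∀ x, DifferentiableWithinAt ℝ (fun s => g s x) (Icc 0 T) t) ∧ Cont T (dt T g)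

/-- `(u, p)` is a classical solution on `[0,T] × 𝕋³` of the Navier-Stokes system with viscosity
`ν`, force `f` and zero initial velocity; `u i` and `f i` are the components. -/
structure IsClassical (ν : ℝ) (f : Fin 3 → ℝ → T3 → ℝ) (T : ℝ)
    (u : Fin 3 → ℝ → T3 → ℝ) (p : ℝ → T3 → ℝ) : Prop where
  cont_u : ∀ i, Cont T (u i)
  dt_u : ∀ i, HasDt T (u i)
  dx_u : ∀ i, HasDx T (u i)
  dxx_u : ∀ i j, HasDx T (dx j (u i))
  cont_p : Cont T p
  dx_p : HasDx T p
  mean_p : ∀ t ∈ Icc 0 T, ∫ x, p t x = 0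
  momentum : ∀ i, ∀ t ∈ Icc 0 T, ∀ x, dt T (u i) t x + ∑ j, u j t x * dx j (u i) t x =
    -dx i p t x + ν * ∑ j, dx j (dx j (u i)) t x + f i t x
  div_u : ∀ t ∈ Icc 0 T, ∀ x, ∑ j, dx j (u j) t x = 0
  init : ∀ i x, u i 0 x = 0

/-- `g` is smooth on `[0,∞) × 𝕋³`. -/
def IsSmooth (g : ℝ → T3 → ℝ) : Prop :=
  ContDiffOn ℝ ∞ (fun z : ℝ × R3 => g z.1 (proj z.2)) (Ici 0 ×ˢ univ)

/-- `X` is a trajectory of `u` from `a`: on `[0,∞)` it is the projection of a curve `Y` in `ℝ³`
with `Y'(t) = u(t, X(t))`, and `X(0) = a`. -/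
def IsTrajectory (u : Fin 3 → ℝ → T3 → ℝ) (a : T3) (X : ℝ → T3) : Prop :=
  X 0 = a ∧ ∃ Y : ℝ → R3, ∀ t, 0 ≤ t →
    proj (Y t) = X t ∧ HasDerivWithinAt Y (fun i => u i t (X t)) (Ici 0) t

/-! ## Machines -/

/-- A deterministic one-tape Turing machine with states `Fin nQ` and alphabet `Fin nS`.
In state `q`, reading `a`, it passes to the state, writes the symbol and makes the move given by
`δ q a`; the moves `0, 1, 2` are one cell to the left, no move, one cell to the right. -/
structure Machine where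
  nQ : ℕ
  nS : ℕ
  start : Fin nQ
  blank : Fin nS
  halting : Fin nQ → Bool
  δ : Fin nQ → Fin nS → Fin nQ × Fin nS × Fin 3

/-- One step on configurations (state, two-sided tape, position of the head); in a halting state
nothing changes. -/
def Machine.step (M : Machine) :
    Fin M.nQ × (ℤ → Fin M.nS) × ℤ → Fin M.nQ × (ℤ → Fin M.nS) × ℤ
  | (q, tape, h) =>
    if M.halting q then (q, tape, h) else
      ((M.δ q (tape h)).1, Function.update tape h (M.δ q (tape h)).2.1,
        h + ((M.δ q (tape h)).2.2 : ℕ) - 1)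

/-- The initial configuration: `w` is written on the cells `0, 1, …` of a blank tape and the head
is at the cell `0`. -/
def Machine.init (M : Machine) (w : List (Fin M.nS)) : Fin M.nQ × (ℤ → Fin M.nS) × ℤ :=
  (M.start, fun h => if 0 ≤ h then w.getD h.toNat M.blank else M.blank, 0)

/-- `M` halts on `w`. -/
def Machine.Halts (M : Machine) (w : List (Fin M.nS)) : Prop :=
  ∃ n, M.halting (M.step^[n] (M.init w)).1 = true

/-- Descriptions of pairs `(M, w)`. -/
abbrev Input := (ℕ × ℕ × ℕ × ℕ × List Bool × List (List (ℕ × ℕ × ℕ))) × List ℕ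

/-- The description of `(M, w)`: sizes, start state, blank, the tables of `halting` and `δ`, and
the word. -/
def Machine.input (M : Machine) (w : List (Fin M.nS)) : Input :=
  ((M.nQ, M.nS, M.start, M.blank, List.ofFn M.halting,
    List.ofFn fun q => List.ofFn fun a => ((M.δ q a).1, (M.δ q a).2.1, (M.δ q a).2.2)),
   w.map Fin.val)

/-! ## Admissible terms -/

noncomputable def rho (s : ℝ) : ℝ := if |s| < 1 then Real.exp (-1 / (1 - s ^ 2)) else 0

noncomputable def kappa : ℝ := ∫ s, rho s

noncomputable def sigma (s : ℝ) : ℝ := ∫ r in Iic s, rho r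

noncomputable def piL (l s : ℝ) : ℝ := sigma s - sigma (s - l)

/-- The data `(k, inl j, a, b)` or `(k, inr ℓ, a, b)` of a bump. -/
abbrev Bump := ℕ × (ℕ ⊕ ℚ) × ℚ × ℚ

/-- The conditions `a ≠ 0` and `ℓ > 0`. -/
def Bump.Valid : Bump → Prop
  | (_, .inl _, a, _) => a ≠ 0
  | (_, .inr l, a, _) => a ≠ 0 ∧ 0 < l

/-- The bump `s^k ρ^(j)(a s - b)` or `s^k π_ℓ(a s - b)`. -/
noncomputable def Bump.eval : Bump → ℝ → ℝ
  | (k, .inl j, a, b), s => s ^ k * iteratedDeriv j rho (a * s - b)
  | (k, .inr l, a, b), s => s ^ k * piL l (a * s - b)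

/-- The periodization `P[g]`. -/
noncomputable def per (g : ℝ → ℝ) (y : ℝ) : ℝ := ∑' m : ℤ, g (y + m)

/-- The product of the periodizations of a list of bumps. -/
noncomputable def perProd (l : List Bump) (y : ℝ) : ℝ := (l.map fun g => per g.eval y).prod

/-- The data `((q, m, n, r), (g, g'), h)` of a term: the numbers in the coefficient, the bumps
that enter `θ` as `g(t)`, those that enter `θ` as `P[g](t)`, and the bumps of each `h_i`. -/
abbrev Term := (ℚ × ℕ × ℤ × List ℚ) × (List Bump × List Bump) × (Fin 3 → List Bump)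

/-- All `r_i` are positive and all bumps are valid. -/
def Term.Valid : Term → Prop
  | ((_, _, _, r), (g, g'), h) =>
    (∀ x ∈ r, 0 < x) ∧ (∀ b ∈ g, b.Valid) ∧ (∀ b ∈ g', b.Valid) ∧ ∀ i, ∀ b ∈ h i, b.Valid

/-- The term is periodic: `θ` is `1` or a product of periodizations only. -/
def Term.periodic : Term → Bool
  | (_, (g, _), _) => g.isEmpty

/-- The function `c θ(t) h₁(x₁) h₂(x₂) h₃(x₃)`, `c = q ν^m κ^n ∏ ln r_i`. -/
noncomputable def Term.eval (ν : ℝ) : Term → ℝ → R3 → ℝ
  | ((q, m, n, r), (g, g'), h), t, x =>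
    (q * ν ^ m * kappa ^ n * (r.map fun x : ℚ => Real.log x).prod) *
      ((g.map fun b => b.eval t).prod * perProd g' t) * ∏ i, perProd (h i) (x i)

/-- `C` is a force compiler: an algorithm that lists valid terms for each component; the terms
that are not periodic vanish after a fixed time, and the list of the periodic terms depends on the
machine only. -/
structure IsCompiler (ν : ℝ) (C : Input → Fin 3 → List Term) : Prop where
  computable : Computable C
  valid : ∀ (M : Machine) w i, ∀ τ ∈ C (M.input w) i, τ.Valid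
  vanish : ∃ T₀ : ℝ, ∀ (M : Machine) w i, ∀ τ ∈ C (M.input w) i, τ.periodic = false →
    ∀ t, T₀ ≤ t → ∀ x, τ.eval ν t x = 0
  machine_only : ∀ (M : Machine) w w' i,
    (C (M.input w) i).filter Term.periodic = (C (M.input w') i).filter Term.periodic

/-- `f` is the force whose components are the sums of the listed terms. -/
def IsForce (ν : ℝ) (L : Fin 3 → List Term) (f : Fin 3 → ℝ → T3 → ℝ) : Prop :=
  ∀ i t x, f i t (proj x) = ((L i).map fun τ => τ.eval ν t x).sum

end Vale.Agent.P113
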