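import Vale.Agent.P113.Defs

/-! Partial derivatives of functions on `ℝ × ℝ³`. -/

namespace Vale.Agent.P113

/-- `∂_j G` for a function on `ℝ × ℝ³`. -/
noncomputable def dxR (j : Fin 3) (G : ℝ → R3 → ℝ) (t : ℝ) (x : R3) : ℝ :=
  deriv (fun s => G t (x + Pi.single j s)) 0

/-- `∂_t G` for a function on `ℝ × ℝ³`. -/
noncomputable def dtR (G : ℝ → R3 → ℝ) (t : ℝ) (x : R3) : ℝ :=
  deriv (fun s => G s x) t

/-- `G` is `ℤ³`-periodic in space. -/
def PerR (G : ℝ → R3 → ℝ) : Prop :=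
  ∀ t x (m : Fin 3 → ℤ), G t (x + fun i => (m i : ℝ)) = G t x

end Vale.Agent.P113
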