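import Mathlib.Analysis.ODE.ExistUnique
import Mathlib.Analysis.Calculus.ContDiff.RCLike
import Mathlib.Topology.Algebra.MetricSpace.Lipschitz
import Mathlib.Analysis.Normed.Module.FiniteDimension
import Mathlib.Tactic

/-! Trajectories of velocity fields made of consecutive time slots, each slot a shear. -/

namespace Vale.Agent.P113

open Set

/-- Uniqueness of forward trajectories of a `C¹` time dependent field. -/
theorem traj_unique {E : Type*} [NormedAddCommGroup E] [NormedSpace ℝ E] [ProperSpace E]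
    (u : ℝ → E → E) (hu : ContDiff ℝ 1 (fun z : ℝ × E => u z.1 z.2)) (X Y : ℝ → E)
    (hX : ∀ t, 0 ≤ t → HasDerivWithinAt X (u t (X t)) (Ici 0) t)
    (hY : ∀ t, 0 ≤ t → HasDerivWithinAt Y (u t (Y t)) (Ici 0) t)
    (h0 : X 0 = Y 0) (t : ℝ) (ht : 0 ≤ t) : X t = Y t := by
  have cX : ContinuousOn X (Icc 0 t) := fun s hs =>
    ((hX s hs.1).continuousWithinAt).mono Icc_subset_Ici_self
  have cY : ContinuousOn Y (Icc 0 t) := fun s hs =>
    ((hY s hs.1).continuousWithinAt).mono Icc_subset_Ici_self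
  have kX : IsCompact (X '' Icc 0 t) := isCompact_Icc.image_of_continuousOn cX
  have kY : IsCompact (Y '' Icc 0 t) := isCompact_Icc.image_of_continuousOn cY
  have kS : IsCompact (Icc (0 : ℝ) t ×ˢ (X '' Icc 0 t ∪ Y '' Icc 0 t)) :=
    isCompact_Icc.prod (kX.union kY)
  obtain ⟨K, hK⟩ := (hu.locallyLipschitz.locallyLipschitzOn).exists_lipschitzOnWith_of_compact kS
  have key : EqOn X Y (Icc 0 t) := by
    refine ODE_solution_unique_of_mem_Icc_right (v := u) (K := K)
      (s := fun _ => X '' Icc 0 t ∪ Y '' Icc 0 t) ?_ cX ?_ ?_ cY ?_ ?_ h0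
    · intro s hs
      refine LipschitzOnWith.of_dist_le_mul fun a ha b hb => ?_
      have := hK.dist_le_mul (s, a) ⟨⟨hs.1, hs.2.le⟩, ha⟩ (s, b) ⟨⟨hs.1, hs.2.le⟩, hb⟩
      simpa [Prod.dist_eq] using this
    · intro s hs
      exact (hX s hs.1).mono (Ici_subset_Ici.2 hs.1)
    · intro s hs
      exact Or.inl ⟨s, ⟨hs.1, hs.2.le⟩, rfl⟩
    · intro s hs
      exact (hY s hs.1).mono (Ici_subset_Ici.2 hs.1)
    · intro s hs
      exact Or.inr ⟨s, ⟨hs.1, hs.2.le⟩, rfl⟩
  exact key ⟨ht, le_rfl⟩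

/-- The trajectory of a field which in the time slot `[j/L, (j+1)/L]` is a multiple of a field
`W j` that is constant along its own direction. -/
theorem slot_flow {E : Type*} [NormedAddCommGroup E] [NormedSpace ℝ E]
    (θ Θ : ℝ → ℝ) (hΘ : ∀ s, HasDerivAt Θ (θ s) s) (h0 : ∀ s, s ≤ 0 → Θ s = 0)
    (h1 : ∀ s, 1 ≤ s → Θ s = 1) (hθ1 : ∀ s, 1 ≤ s → θ s = 0)
    (L : ℝ) (hL : 0 < L) (W : ℕ → E → E)
    (hW : ∀ j x (s : ℝ), W j (x + s • W j x) = W j x)
    (u : ℝ → E → E)
    (hu : ∀ (j : ℕ) t, L * t - j ∈ Icc (0 : ℝ) 1 → ∀ x, u t x = (L * θ (L * t - j)) • W j x)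
    (P : ℕ → E) (hP : ∀ j, P (j + 1) = P j + W j (P j)) :
    ∃ X : ℝ → E, (∀ t, 0 ≤ t → HasDerivAt X (u t (X t)) t) ∧
      ∀ (j : ℕ) t, L * t - j ∈ Icc (0 : ℝ) 1 → X t = P j + Θ (L * t - j) • W j (P j) := by
  classical
  set D : ℕ → E := fun j => W j (P j) with hD
  set XN : ℕ → ℝ → E := fun N t => P 0 + ∑ j ∈ Finset.range N, Θ (L * t - j) • D j with hXN
  have tele : ∀ j, P j = P 0 + ∑ i ∈ Finset.range j, D i := by
    intro j
    induction j with
    | zero => simp
    | succ j ih => rw [Finset.sum_range_succ, ← add_assoc, ← ih, hP]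
  have stab : ∀ (N M : ℕ) t, N ≤ M → L * t ≤ N → XN M t = XN N t := by
    intro N M t hNM ht
    simp only [hXN]
    congr 1
    symm
    refine Finset.sum_subset (Finset.range_subset_range.2 hNM) fun i _ hi => ?_
    have : (N : ℝ) ≤ i := by
      have : N ≤ i := by simpa using hi
      exact_mod_cast this
    rw [h0 _ (by linarith), zero_smul]
  have form : ∀ (j : ℕ) t, L * t - j ∈ Icc (0 : ℝ) 1 →
      XN (j + 1) t = P j + Θ (L * t - j) • D j := by
    intro j t ht
    simp only [hXN]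
    rw [Finset.sum_range_succ, ← add_assoc, tele j]
    congr 2
    refine Finset.sum_congr rfl fun i hi => ?_
    have : (i : ℝ) + 1 ≤ j := by
      have : i + 1 ≤ j := by simpa using hi
      exact_mod_cast this
    rw [h1 _ (by linarith [ht.1]), one_smul]
  set X : ℝ → E := fun t => XN (⌊L * t⌋₊ + 1) t with hX
  have XeqN : ∀ (N : ℕ) t, L * t ≤ N → X t = XN N t := by
    intro N t ht
    have h2 : L * t ≤ ((⌊L * t⌋₊ + 1 : ℕ) : ℝ) := by
      push_cast; exact (Nat.lt_floor_add_one _).le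
    rcases le_total N (⌊L * t⌋₊ + 1) with h | h
    · exact stab _ _ t h ht
    · exact (stab _ _ t h h2).symm
  have Xform : ∀ (j : ℕ) t, L * t - j ∈ Icc (0 : ℝ) 1 →
      X t = P j + Θ (L * t - j) • D j := by
    intro j t ht
    rw [← form j t ht]
    exact XeqN _ _ (by push_cast; linarith [ht.2])
  refine ⟨X, fun t ht => ?_, Xform⟩
  set j := ⌊L * t⌋₊ with hj
  have hLt : 0 ≤ L * t := mul_nonneg hL.le ht
  have hjt : L * t - j ∈ Icc (0 : ℝ) 1 :=
    ⟨sub_nonneg.2 (Nat.floor_le hLt), by linarith [Nat.lt_floor_add_one (L * t)]⟩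
  have hlt : L * t < j + 1 := Nat.lt_floor_add_one _
  have ev : X =ᶠ[nhds t] XN (j + 1) := by
    have : ∀ᶠ s in nhds t, L * s < j + 1 :=
      (continuous_const.mul continuous_id).continuousAt.eventually_lt continuousAt_const hlt
    filter_upwards [this] with s hs
    exact XeqN _ _ (by push_cast; exact hs.le)
  have hd : HasDerivAt (XN (j + 1))
      (∑ i ∈ Finset.range (j + 1), (θ (L * t - i) * L) • D i) t := by
    simp only [hXN]
    refine HasDerivAt.const_add _ (HasDerivAt.fun_sum fun i _ => ?_)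
    have a1 : HasDerivAt (fun s : ℝ => L * s - i) L t := by
      simpa using ((hasDerivAt_id t).const_mul L).sub_const (i : ℝ)
    exact ((hΘ _).comp t a1).smul_const (D i)
  have hval : (∑ i ∈ Finset.range (j + 1), (θ (L * t - i) * L) • D i) = u t (X t) := by
    rw [hu j t hjt, Xform j t hjt, hW, Finset.sum_range_succ, Finset.sum_eq_zero, zero_add,
      mul_comm]
    intro i hi
    have : (i : ℝ) + 1 ≤ j := by
      have : i + 1 ≤ j := by simpa using hi
      exact_mod_cast this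
    rw [hθ1 _ (by linarith [hjt.1]), zero_mul, zero_smul]
  rw [← hval]
  exact hd.congr_of_eventuallyEq ev

end Vale.Agent.P113
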