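import Vale.Agent.P113.Unique
import Vale.Agent.P113.Ops
import Vale.Agent.P113.Slot
import Mathlib.Analysis.Calculus.ContDiff.Operations
import Mathlib.Analysis.Calculus.ContDiff.Comp
import Mathlib.Analysis.Calculus.Deriv.Prod
import Mathlib.Topology.Algebra.Group.Quotient

/-! Smooth periodic fields on `ℝ × ℝ³` descend to smooth classical solutions on the torus. -/

namespace Vale.Agent.P113.Desc

open Set Filter Topology
open scoped ContDiff

/-- smooth on `ℝ × ℝ³` -/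
def Sm (G : ℝ → R3 → ℝ) : Prop := ContDiff ℝ ∞ fun z : ℝ × R3 => G z.1 z.2

/-- period one in each space coordinate -/
def PerX (G : ℝ → R3 → ℝ) : Prop := ∀ t x j, G t (x + Pi.single j 1) = G t x

theorem hasDerivAt_single (j : Fin 3) (t : ℝ) (x : R3) (s₀ : ℝ) :
    HasDerivAt (fun s : ℝ => ((t, x + Pi.single j s) : ℝ × R3)) (0, Pi.single j 1) s₀ := by
  refine (hasDerivAt_const s₀ t).prodMk ?_
  have h : (fun s : ℝ => x + Pi.single j s) = fun s : ℝ => x + s • (Pi.single j 1 : R3) := by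
    funext s
    rw [← Pi.single_smul, smul_eq_mul, mul_one]
  rw [h]
  simpa using ((hasDerivAt_id s₀).smul_const (Pi.single j 1 : R3)).const_add x

theorem Sm.hasDerivAt_DX' {G : ℝ → R3 → ℝ} (hG : Sm G) (j : Fin 3) (t : ℝ) (x : R3) :
    HasDerivAt (fun s : ℝ => G t (x + Pi.single j s))
      (fderiv ℝ (fun z : ℝ × R3 => G z.1 z.2) (t, x) (0, Pi.single j 1)) 0 := by
  have h1 : HasFDerivAt (fun z : ℝ × R3 => G z.1 z.2)
      (fderiv ℝ (fun z : ℝ × R3 => G z.1 z.2) (t, x)) (t, x + Pi.single j (0 : ℝ)) := by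
    rw [Pi.single_zero, add_zero]
    exact (hG.differentiable (by simp) (t, x)).hasFDerivAt
  exact h1.comp_hasDerivAt (0 : ℝ) (hasDerivAt_single j t x 0)

theorem Sm.hasDerivAt_DT' {G : ℝ → R3 → ℝ} (hG : Sm G) (t : ℝ) (x : R3) :
    HasDerivAt (fun s : ℝ => G s x)
      (fderiv ℝ (fun z : ℝ × R3 => G z.1 z.2) (t, x) (1, 0)) t := by
  have h1 := (hG.differentiable (by simp) (t, x)).hasFDerivAt
  have h2 : HasDerivAt (fun s : ℝ => ((s, x) : ℝ × R3)) (1, 0) t :=
    (hasDerivAt_id t).prodMk (hasDerivAt_const t x)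
  exact HasFDerivAt.comp_hasDerivAt (f := fun s : ℝ => ((s, x) : ℝ × R3)) t h1 h2

theorem Sm.hasDerivAt_DX {G : ℝ → R3 → ℝ} (hG : Sm G) (j : Fin 3) (t : ℝ) (x : R3) :
    HasDerivAt (fun s : ℝ => G t (x + Pi.single j s)) (dxR j G t x) 0 :=
  (hG.hasDerivAt_DX' j t x).differentiableAt.hasDerivAt

theorem Sm.hasDerivAt_DT {G : ℝ → R3 → ℝ} (hG : Sm G) (t : ℝ) (x : R3) :
    HasDerivAt (fun s : ℝ => G s x) (dtR G t x) t :=
  (hG.hasDerivAt_DT' t x).differentiableAt.hasDerivAt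

theorem Sm.fderiv_apply {G : ℝ → R3 → ℝ} (hG : Sm G) (v : ℝ × R3) :
    ContDiff ℝ ∞ fun z : ℝ × R3 => fderiv ℝ (fun z : ℝ × R3 => G z.1 z.2) z v :=
  (ContDiff.fderiv_right (m := ∞) hG (by simp)).clm_apply contDiff_const

theorem Sm.DX {G : ℝ → R3 → ℝ} (hG : Sm G) (j : Fin 3) : Sm (dxR j G) := by
  have h : (fun z : ℝ × R3 => dxR j G z.1 z.2)
      = fun z : ℝ × R3 => fderiv ℝ (fun z : ℝ × R3 => G z.1 z.2) z (0, Pi.single j 1) :=
    funext fun z => (hG.hasDerivAt_DX' j z.1 z.2).deriv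
  unfold Sm
  rw [h]
  exact hG.fderiv_apply _

theorem Sm.DT {G : ℝ → R3 → ℝ} (hG : Sm G) : Sm (dtR G) := by
  have h : (fun z : ℝ × R3 => dtR G z.1 z.2)
      = fun z : ℝ × R3 => fderiv ℝ (fun z : ℝ × R3 => G z.1 z.2) z (1, 0) :=
    funext fun z => (hG.hasDerivAt_DT' z.1 z.2).deriv
  unfold Sm
  rw [h]
  exact hG.fderiv_apply _

theorem PerX.DX {G : ℝ → R3 → ℝ} (hG : PerX G) (j : Fin 3) : PerX (dxR j G) := by
  intro t x k
  unfold dxR
  congr 1
  funext s
  rw [add_right_comm, hG]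

theorem PerX.DT {G : ℝ → R3 → ℝ} (hG : PerX G) : PerX (dtR G) := by
  intro t x k
  unfold dtR
  congr 1
  funext s
  rw [hG]

/-- A periodic function takes equal values at points with the same projection. -/
theorem PerX.eq_of_proj {G : ℝ → R3 → ℝ} (hG : PerX G) (t : ℝ) {x y : R3} (h : proj x = proj y) :
    G t x = G t y := by
  have hz : ∀ (j : Fin 3) (m : ℤ) (y : R3), G t (y + (Pi.single j (m : ℝ) : R3)) = G t y := by
    intro j m y
    have hp : Function.Periodic (G t) (Pi.single j 1 : R3) := fun x => hG t x j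
    have := hp.zsmul m y
    rwa [← Pi.single_smul, zsmul_eq_mul, mul_one] at this
  have hm : ∀ i, ∃ m : ℤ, x i = y i + m := by
    intro i
    have h1 : ((x i - y i : ℝ) : UnitAddCircle) = 0 := by
      rw [AddCircle.coe_sub]
      exact sub_eq_zero.2 (congrFun h i)
    obtain ⟨m, hm⟩ := (AddCircle.coe_eq_zero_iff 1).1 h1
    refine ⟨m, ?_⟩
    rw [zsmul_eq_mul, mul_one] at hm
    linarith
  choose m hm using hm
  have hx : x = y + Pi.single 0 (m 0 : ℝ) + Pi.single 1 (m 1 : ℝ) + Pi.single 2 (m 2 : ℝ) := by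
    funext i
    fin_cases i <;> simp [hm]
  rw [hx, hz, hz, hz]

/-- a point of `ℝ³` above a point of the torus -/
noncomputable def lift (x : T3) : R3 := (Uniq.proj_surj x).choose

theorem proj_lift (x : T3) : proj (lift x) = x := (Uniq.proj_surj x).choose_spec

/-- the function on the torus induced by a periodic function -/
noncomputable def desc (G : ℝ → R3 → ℝ) (t : ℝ) (x : T3) : ℝ := G t (lift x)

theorem PerX.desc_proj {G : ℝ → R3 → ℝ} (hG : PerX G) (t : ℝ) (x : R3) :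
    desc G t (proj x) = G t x :=
  hG.eq_of_proj t (proj_lift _)

theorem isOpenQuotientMap_proj : IsOpenQuotientMap proj :=
  IsOpenQuotientMap.piMap (f := fun _ : Fin 3 => ((↑) : ℝ → UnitAddCircle))
    fun _ => QuotientAddGroup.isOpenQuotientMap_mk

theorem continuous_desc {G : ℝ → R3 → ℝ} (hs : Sm G) (hp : PerX G) :
    Continuous fun z : ℝ × T3 => desc G z.1 z.2 := by
  rw [← (IsOpenQuotientMap.id.prodMap isOpenQuotientMap_proj).continuous_comp_iff]
  have h : ((fun z : ℝ × T3 => desc G z.1 z.2) ∘ Prod.map id proj)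
      = fun z : ℝ × R3 => G z.1 z.2 := funext fun z => hp.desc_proj z.1 z.2
  rw [h]
  exact hs.continuous

theorem cont_desc {G : ℝ → R3 → ℝ} (hs : Sm G) (hp : PerX G) (T : ℝ) : Cont T (desc G) :=
  (continuous_desc hs hp).continuousOn

theorem isSmooth_desc {G : ℝ → R3 → ℝ} (hs : Sm G) (hp : PerX G) : IsSmooth (desc G) := by
  have h : (fun z : ℝ × R3 => desc G z.1 (proj z.2)) = fun z : ℝ × R3 => G z.1 z.2 :=
    funext fun z => hp.desc_proj z.1 z.2
  unfold IsSmooth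
  rw [h]
  exact ContDiff.contDiffOn hs

theorem line_desc {G : ℝ → R3 → ℝ} (hp : PerX G) (j : Fin 3) (t : ℝ) (x : T3) :
    line j (desc G) t x = fun s => G t (lift x + Pi.single j s) := by
  funext s
  rw [← hp.desc_proj, Uniq.proj_add, proj_lift]
  rfl

theorem dx_desc {G : ℝ → R3 → ℝ} (hp : PerX G) (j : Fin 3) : dx j (desc G) = desc (dxR j G) := by
  funext t x
  unfold dx
  rw [line_desc hp]
  rfl

theorem dt_desc {G : ℝ → R3 → ℝ} (hs : Sm G) {T : ℝ} (hT : 0 < T) {t : ℝ} (ht : t ∈ Icc 0 T)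
    (x : T3) : dt T (desc G) t x = desc (dtR G) t x :=
  (hs.hasDerivAt_DT t (lift x)).hasDerivWithinAt.derivWithin (uniqueDiffOn_Icc hT t ht)

theorem hasDx_desc {G : ℝ → R3 → ℝ} (hs : Sm G) (hp : PerX G) (T : ℝ) : HasDx T (desc G) := by
  intro j
  refine ⟨fun t _ x => ?_, ?_⟩
  · rw [line_desc hp]
    exact (hs.hasDerivAt_DX j t (lift x)).differentiableAt
  · rw [dx_desc hp]
    exact cont_desc (hs.DX j) (hp.DX j) T

theorem hasDt_desc {G : ℝ → R3 → ℝ} (hs : Sm G) (hp : PerX G) {T : ℝ} (hT : 0 < T) :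
    HasDt T (desc G) := by
  refine ⟨fun t _ x => (hs.hasDerivAt_DT t (lift x)).differentiableAt.differentiableWithinAt, ?_⟩
  exact (cont_desc hs.DT hp.DT T).congr fun z hz => dt_desc hs hT hz.1 z.2

theorem perX_of_perR {G : ℝ → R3 → ℝ} (h : PerR G) : PerX G := by
  intro t x j
  have h1 := h t x (Pi.single j 1)
  have h2 : (fun i => (((Pi.single j 1 : Fin 3 → ℤ) i : ℤ) : ℝ)) = (Pi.single j 1 : R3) := by
    funext i
    by_cases hi : i = j
    · subst hi
      simp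
    · simp [Pi.single_eq_of_ne hi]
  rwa [h2] at h1

theorem isClassical_desc (ν : ℝ) {U F : Fin 3 → ℝ → R3 → ℝ} (hs : ∀ i, Sm (U i))
    (hp : ∀ i, PerX (U i)) (h0 : ∀ i x, U i 0 x = 0)
    (hdiv : ∀ t x, 0 ≤ t → ∑ j, dxR j (U j) t x = 0)
    (hns : ∀ i t x, 0 ≤ t → dtR (U i) t x + ∑ j, U j t x * dxR j (U i) t x
      = ν * ∑ j, dxR j (dxR j (U i)) t x + F i t x)
    {T : ℝ} (hT : 0 < T) :
    IsClassical ν (fun i => desc (F i)) T (fun i => desc (U i)) fun _ _ => 0 where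
  cont_u i := cont_desc (hs i) (hp i) T
  dt_u i := hasDt_desc (hs i) (hp i) hT
  dx_u i := hasDx_desc (hs i) (hp i) T
  dxx_u i j := by
    rw [dx_desc (hp i)]
    exact hasDx_desc ((hs i).DX j) ((hp i).DX j) T
  cont_p := continuousOn_const
  dx_p := hasDx_desc (G := fun _ _ => 0) contDiff_const (fun _ _ _ => rfl) T
  mean_p _ _ := by simp
  momentum i t ht x := by
    have h1 : dx i (fun _ _ => 0) t x = 0 := deriv_const (0 : ℝ) (0 : ℝ)
    have h2 : ∀ j, dx j (desc (dxR j (U i))) = desc (dxR j (dxR j (U i))) :=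
      fun j => dx_desc ((hp i).DX j) j
    simp only [dx_desc (hp i), h2, dt_desc (hs i) hT ht, h1]
    simp only [desc]
    rw [hns i t (lift x) ht.1]
    ring
  div_u t ht x := by
    simp only [dx_desc (hp _)]
    exact hdiv t (lift x) ht.1
  init i x := h0 i (lift x)

end Vale.Agent.P113.Desc

namespace Vale.Agent.P113

open Set Desc
open scoped ContDiff

/-- Descent of a smooth periodic solution with zero pressure and of its trajectories. -/
theorem descend (ν : ℝ) (U F : Fin 3 → ℝ → R3 → ℝ)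
    (hU : ∀ i, ContDiff ℝ ∞ fun z : ℝ × R3 => U i z.1 z.2)
    (hF : ∀ i, ContDiff ℝ ∞ fun z : ℝ × R3 => F i z.1 z.2)
    (pU : ∀ i, PerR (U i)) (pF : ∀ i, PerR (F i)) (h0 : ∀ i x, U i 0 x = 0)
    (hdiv : ∀ t x, 0 ≤ t → ∑ j, dxR j (U j) t x = 0)
    (hns : ∀ i t x, 0 ≤ t → dtR (U i) t x + ∑ j, U j t x * dxR j (U i) t x
      = ν * ∑ j, dxR j (dxR j (U i)) t x + F i t x) :
    ∃ u f : Fin 3 → ℝ → T3 → ℝ, (∀ i t x, u i t (proj x) = U i t x) ∧
      (∀ i t x, f i t (proj x) = F i t x) ∧ (∀ i, IsSmooth (u i)) ∧ (∀ i, IsSmooth (f i)) ∧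
      IsSmooth (fun _ _ => 0) ∧ (∀ T, 0 < T → IsClassical ν f T u fun _ _ => 0) ∧
      ∀ (a : R3) (Y : ℝ → R3), Y 0 = a →
        (∀ t, 0 ≤ t → HasDerivAt Y (fun i => U i t (Y t)) t) →
        IsTrajectory u (proj a) (fun t => proj (Y t)) ∧
          ∀ X', IsTrajectory u (proj a) X' → ∀ t, 0 ≤ t → X' t = proj (Y t) := by
  have pU' := fun i => perX_of_perR (pU i)
  have pF' := fun i => perX_of_perR (pF i)
  refine ⟨fun i => desc (U i), fun i => desc (F i), fun i => (pU' i).desc_proj,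
    fun i => (pF' i).desc_proj, fun i => isSmooth_desc (hU i) (pU' i),
    fun i => isSmooth_desc (hF i) (pF' i), contDiffOn_const,
    fun T hT => isClassical_desc ν hU pU' h0 hdiv hns hT, fun a Y hY0 hY => ⟨⟨congrArg proj hY0, Y,
      fun t ht => ⟨rfl, ?_⟩⟩, ?_⟩⟩
  · simp only [(pU' _).desc_proj]
    exact (hY t ht).hasDerivWithinAt
  · rintro X' ⟨hX0, Z, hZ⟩ t ht
    have hpz : ∀ s, proj (Z s + (a - Z 0)) = proj (Z s) := by
      intro s
      have h1 : proj (a - Z 0) + proj (Z 0) = proj (Z 0) := by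
        rw [← Uniq.proj_add, sub_add_cancel, (hZ 0 le_rfl).1, hX0]
      rw [Uniq.proj_add, add_eq_right.1 h1, add_zero]
    have hc : ContDiff ℝ 1 fun z : ℝ × R3 => (fun i => U i z.1 z.2 : R3) :=
      contDiff_pi.2 fun i => (hU i).of_le (by simp)
    have key := traj_unique (fun t x => (fun i => U i t x : R3)) hc
      (fun s => Z s + (a - Z 0)) Y (fun s hs => ?_) (fun s hs => (hY s hs).hasDerivWithinAt)
      (by simp [hY0]) t ht
    · rw [← (hZ t ht).1, ← hpz t]
      exact congrArg proj key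
    · have h1 := ((hZ s hs).2).add_const (a - Z 0)
      have h2 : (fun i => desc (U i) s (X' s)) = fun i => U i s (Z s + (a - Z 0)) := by
        funext i
        rw [← (hZ s hs).1, ← hpz s, (pU' i).desc_proj]
      rw [← h2]
      exact h1

end Vale.Agent.P113
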