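import Vale.Agent.P113.Grid
import Vale.Agent.P113.Slot
import Vale.Agent.P113.Ops

/-! The velocity field: one loading translation, then five shears in each period. -/

namespace Vale.Agent.P113

open Set

/-- The periodic part of the velocity. -/
noncomputable def Uper (G : ℕ → ℝ → ℝ → ℝ) : Fin 3 → ℝ → R3 → ℝ :=
  ![fun t x => pp 2 t * G 2 (x 1) (x 2) + pp 4 t * G 4 (x 1) (x 2),
    fun t x => pp 3 t * G 3 (x 0) (x 2),
    fun t x => pp 1 t * G 1 (x 0) (x 1) + pp 5 t * G 5 (x 0) (x 1)]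

/-- The velocity. -/
noncomputable def Uvel (G : ℕ → ℝ → ℝ → ℝ) (a : R3) (i : Fin 3) (t : ℝ) (x : R3) : ℝ :=
  a i * p0 t + Uper G i t x

/-- The field of the time slot `j`. -/
noncomputable def Wslot (G : ℕ → ℝ → ℝ → ℝ) (a : R3) (j : ℕ) (x : R3) : R3 :=
  if j = 0 then a else
  if j % 6 = 1 then ![0, 0, G 1 (x 0) (x 1)] else
  if j % 6 = 2 then ![G 2 (x 1) (x 2), 0, 0] else
  if j % 6 = 3 then ![0, G 3 (x 0) (x 2), 0] else
  if j % 6 = 4 then ![G 4 (x 1) (x 2), 0, 0] else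
  if j % 6 = 5 then ![0, 0, G 5 (x 0) (x 1)] else 0

variable (G : ℕ → ℝ → ℝ → ℝ) (a : R3)

theorem Uvel_slot (j : ℕ) (t : ℝ) (ht : 6 * t - j ∈ Icc (0 : ℝ) 1) (x : R3) :
    (fun i => Uvel G a i t x) = (6 * th (6 * t - j)) • Wslot G a j x := by
  have h0 := p0_slot j ht
  have h1 := pp_slot (k := 1) (by norm_num) j ht
  have h2 := pp_slot (k := 2) (by norm_num) j ht
  have h3 := pp_slot (k := 3) (by norm_num) j ht
  have h4 := pp_slot (k := 4) (by norm_num) j ht
  have h5 := pp_slot (k := 5) (by norm_num) j ht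
  have hj : j = 0 ∨ (j ≠ 0 ∧ (j % 6 = 0 ∨ j % 6 = 1 ∨ j % 6 = 2 ∨ j % 6 = 3 ∨ j % 6 = 4 ∨
      j % 6 = 5)) := by omega
  funext i
  rcases hj with hj | ⟨hj, h | h | h | h | h | h⟩
  · subst hj
    fin_cases i <;> simp [Uvel, Uper, Wslot, h0, h1, h2, h3, h4, h5, mul_comm]
  all_goals
    fin_cases i <;> simp [Uvel, Uper, Wslot, h0, h1, h2, h3, h4, h5, hj, h]

theorem Wslot_inv (j : ℕ) (x : R3) (s : ℝ) :
    Wslot G a j (x + s • Wslot G a j x) = Wslot G a j x := by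
  unfold Wslot
  split_ifs <;> simp

theorem Wslot_shear (j : ℕ) (c : Fin 3) :
    (∀ x, Wslot G a j x c = 0) ∨ ∀ x s, Wslot G a j (x + Pi.single c s) = Wslot G a j x := by
  unfold Wslot
  split_ifs
  · exact Or.inr fun _ _ => rfl
  all_goals fin_cases c <;> simp

theorem exists_slot {t : ℝ} (ht : 0 ≤ t) : ∃ j : ℕ, 6 * t - j ∈ Icc (0 : ℝ) 1 :=
  ⟨⌊6 * t⌋₊, sub_nonneg.2 (Nat.floor_le (by linarith)),
    by linarith [Nat.lt_floor_add_one (6 * t)]⟩

/-- The convective term vanishes. -/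
theorem Uvel_convect (i : Fin 3) {t : ℝ} (ht : 0 ≤ t) (x : R3) :
    ∑ c, Uvel G a c t x * dxR c (Uvel G a i) t x = 0 := by
  obtain ⟨j, hj⟩ := exists_slot ht
  refine Finset.sum_eq_zero fun c _ => ?_
  rcases Wslot_shear G a j c with h | h
  · have := congrFun (Uvel_slot G a j t hj x) c
    simp only [Pi.smul_apply, h, smul_zero] at this
    rw [this, zero_mul]
  · have e : (fun s : ℝ => Uvel G a i t (x + Pi.single c s)) = fun _ => Uvel G a i t x := by
      funext s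
      have e1 := congrFun (Uvel_slot G a j t hj (x + Pi.single c s)) i
      have e2 := congrFun (Uvel_slot G a j t hj x) i
      rw [h] at e1
      exact e1.trans e2.symm
    unfold dxR
    rw [e, deriv_const, mul_zero]

theorem Uvel_div (t : ℝ) (x : R3) : ∑ c, dxR c (Uvel G a c) t x = 0 := by
  refine Finset.sum_eq_zero fun c _ => ?_
  have e : (fun s : ℝ => Uvel G a c t (x + Pi.single c s)) = fun _ => Uvel G a c t x := by
    funext s
    fin_cases c <;> simp [Uvel, Uper]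
  unfold dxR
  rw [e, deriv_const]

theorem Uvel_zero (i : Fin 3) (x : R3) : Uvel G a i 0 x = 0 := by
  have := congrFun (Uvel_slot G a 0 0 (by simp) x) i
  simpa [th_of_le] using this

/-- The positions at the times `j / 6`. -/
noncomputable def orbit : ℕ → R3
  | 0 => 0
  | j + 1 => orbit j + Wslot G a j (orbit j)

theorem orbit_succ (j : ℕ) : orbit G a (j + 1) = orbit G a j + Wslot G a j (orbit G a j) := rfl

theorem orbit_one : orbit G a 1 = a := by simp [orbit, Wslot]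

section steps

variable {G a}

theorem orbit_s1 {k : ℕ} {x y z : ℝ} (h : orbit G a (6 * k + 1) = ![x, y, z]) :
    orbit G a (6 * k + 2) = ![x, y, z + G 1 x y] := by
  rw [orbit_succ, h]
  have h1 : (6 * k + 1) % 6 = 1 := by omega
  simp [Wslot, h1]

theorem orbit_s2 {k : ℕ} {x y z : ℝ} (h : orbit G a (6 * k + 2) = ![x, y, z]) :
    orbit G a (6 * k + 3) = ![x + G 2 y z, y, z] := by
  rw [orbit_succ, h]
  have h1 : (6 * k + 2) % 6 = 2 := by omega
  simp [Wslot, h1]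

theorem orbit_s3 {k : ℕ} {x y z : ℝ} (h : orbit G a (6 * k + 3) = ![x, y, z]) :
    orbit G a (6 * k + 4) = ![x, y + G 3 x z, z] := by
  rw [orbit_succ, h]
  have h1 : (6 * k + 3) % 6 = 3 := by omega
  simp [Wslot, h1]

theorem orbit_s4 {k : ℕ} {x y z : ℝ} (h : orbit G a (6 * k + 4) = ![x, y, z]) :
    orbit G a (6 * k + 5) = ![x + G 4 y z, y, z] := by
  rw [orbit_succ, h]
  have h1 : (6 * k + 4) % 6 = 4 := by omega
  simp [Wslot, h1]

theorem orbit_s5 {k : ℕ} {x y z : ℝ} (h : orbit G a (6 * k + 5) = ![x, y, z]) :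
    orbit G a (6 * k + 6) = ![x, y, z + G 5 x y] := by
  rw [orbit_succ, h]
  have h1 : (6 * k + 5) % 6 = 5 := by omega
  simp [Wslot, h1]

theorem orbit_s6 (k : ℕ) : orbit G a (6 * (k + 1) + 1) = orbit G a (6 * k + 6) := by
  rw [show 6 * (k + 1) + 1 = 6 * k + 6 + 1 by ring, orbit_succ]
  have h1 : (6 * k + 6) % 6 = 0 := by omega
  simp [Wslot, h1]

end steps

/-- The open box whose image is the detection set. -/
def box : Set R3 := univ.pi fun i => Ioo (((![-1, -1, 1 / 2] : Fin 3 → ℚ) i : ℚ) : ℝ)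
  (((![2, 2, 1] : Fin 3 → ℚ) i : ℚ) : ℝ)

theorem not_mem_box {v : R3} (hv : v 2 ∈ Icc (0 : ℝ) (1 / 2)) : proj v ∉ proj '' box := by
  rintro ⟨b, hb, e⟩
  have h2 := hb 2 (mem_univ _)
  simp only [Matrix.cons_val, mem_Ioo] at h2
  push_cast at h2
  have e2 : ((b 2 : ℝ) : UnitAddCircle) = (v 2 : ℝ) := congrFun e 2
  have := (AddCircle.coe_eq_coe_iff_of_mem_Ico (p := (1 : ℝ)) (a := 0)
    (x := b 2) (y := v 2) ⟨by linarith [h2.1], by linarith [h2.2]⟩
    ⟨hv.1, by linarith [hv.2]⟩).1 e2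
  linarith [h2.1, hv.2]

theorem mem_box {x y : ℝ} (hx : x ∈ Icc (0 : ℝ) (1 / 2)) (hy : y ∈ Icc (0 : ℝ) (1 / 2)) :
    (![x, y, 3 / 4] : R3) ∈ box := by
  intro i _
  fin_cases i
  · simp only [Fin.zero_eta, Matrix.cons_val_zero, mem_Ioo]
    push_cast
    constructor <;> linarith [hx.1, hx.2]
  · simp only [Fin.mk_one, Matrix.cons_val_one, Matrix.cons_val_zero, mem_Ioo]
    push_cast
    constructor <;> linarith [hy.1, hy.2]
  · simp only [Fin.reduceFinMk, Matrix.cons_val, mem_Ioo]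
    push_cast
    constructor <;> norm_num

/-- The trajectory from the origin meets the detection set exactly when the orbit halts. -/
theorem flow_hit (x y : ℕ → ℝ) (halt : ℕ → Prop)
    (hxy : ∀ k, x k ∈ Icc (0 : ℝ) (1 / 2) ∧ y k ∈ Icc (0 : ℝ) (1 / 2))
    (hh : ∀ k, halt k → G 1 (x k) (y k) = 3 / 4)
    (hG : ∀ k, ¬ halt k → G 1 (x k) (y k) = x (k + 1) ∧
      G 2 (y k) (x (k + 1)) = y (k + 1) - x k ∧ G 3 (y (k + 1)) (x (k + 1)) = y (k + 1) - y k)
    (hG4 : ∀ s ∈ Icc (0 : ℝ) (1 / 2), ∀ t ∈ Icc (0 : ℝ) (1 / 2), G 4 s t = t - s)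
    (hG5 : ∀ s ∈ Icc (0 : ℝ) (1 / 2), ∀ t ∈ Icc (0 : ℝ) (1 / 2), G 5 s t = -s)
    (ha : a = ![x 0, y 0, 0]) :
    ∃ Y : ℝ → R3, Y 0 = 0 ∧ (∀ t, 0 ≤ t → HasDerivAt Y (fun i => Uvel G a i t (Y t)) t) ∧
      ((∃ t, 0 ≤ t ∧ proj (Y t) ∈ proj '' box) ↔ ∃ k, halt k) := by
  classical
  obtain ⟨Y, hY, hform⟩ := slot_flow th Th hasDerivAt_Th (fun _ => Th_of_le) (fun _ => Th_of_ge)
    (fun _ => th_of_ge) 6 (by norm_num) (Wslot G a) (Wslot_inv G a)
    (fun t v i => Uvel G a i t v) (fun j t ht v => Uvel_slot G a j t ht v) (orbit G a)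
    (orbit_succ G a)
  have hat : ∀ j : ℕ, Y (j / 6) = orbit G a j := by
    intro j
    have e : 6 * ((j : ℝ) / 6) - j = 0 := by ring
    rw [hform j _ (by rw [e]; simp), e, Th_of_le le_rfl, zero_smul, add_zero]
  have period : ∀ k, ¬ halt k → orbit G a (6 * k + 1) = ![x k, y k, 0] →
      orbit G a (6 * k + 2) = ![x k, y k, x (k + 1)] ∧
      orbit G a (6 * k + 3) = ![y (k + 1), y k, x (k + 1)] ∧
      orbit G a (6 * k + 4) = ![y (k + 1), y (k + 1), x (k + 1)] ∧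
      orbit G a (6 * k + 5) = ![x (k + 1), y (k + 1), x (k + 1)] ∧
      orbit G a (6 * k + 6) = ![x (k + 1), y (k + 1), 0] := by
    intro k hk h1
    obtain ⟨g1, g2, g3⟩ := hG k hk
    have h2 := orbit_s1 h1
    rw [g1, zero_add] at h2
    have h3 := orbit_s2 h2
    rw [g2, add_sub_cancel] at h3
    have h4 := orbit_s3 h3
    rw [g3, add_sub_cancel] at h4
    have h5 := orbit_s4 h4
    rw [hG4 _ (hxy _).2 _ (hxy _).1, add_sub_cancel] at h5
    have h6 := orbit_s5 h5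
    rw [hG5 _ (hxy _).1 _ (hxy _).2, add_neg_cancel] at h6
    exact ⟨h2, h3, h4, h5, h6⟩
  have start : ∀ k, (∀ k', k' < k → ¬ halt k') → orbit G a (6 * k + 1) = ![x k, y k, 0] := by
    intro k
    induction k with
    | zero => intro _; rw [← ha]; exact orbit_one G a
    | succ k ih =>
      intro h
      rw [orbit_s6]
      exact (period k (h k (by omega)) (ih fun k' hk' => h k' (by omega))).2.2.2.2
  refine ⟨Y, by simpa [orbit] using hat 0, hY, ?_, ?_⟩
  · rintro ⟨t, ht, hmem⟩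
    by_contra hno
    have hno' : ∀ k, ¬ halt k := fun k hk => hno ⟨k, hk⟩
    have hz : ∀ j, orbit G a j 2 ∈ Icc (0 : ℝ) (1 / 2) := by
      intro j
      rcases Nat.eq_zero_or_pos j with rfl | hj
      · simp [orbit]
      obtain ⟨k, r, hr, rfl⟩ : ∃ k r, r < 6 ∧ j = 6 * k + (r + 1) :=
        ⟨(j - 1) / 6, (j - 1) % 6, Nat.mod_lt _ (by norm_num), by omega⟩
      have h1 := start k fun k' _ => hno' k'
      obtain ⟨h2, h3, h4, h5, h6⟩ := period k (hno' k) h1
      have hx := (hxy (k + 1)).1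
      interval_cases r
      · rw [h1]; simp
      · rw [h2]; simpa using hx
      · rw [h3]; simpa using hx
      · rw [h4]; simpa using hx
      · rw [h5]; simpa using hx
      · rw [h6]; simp
    obtain ⟨j, hj⟩ := exists_slot ht
    refine not_mem_box (v := Y t) ?_ hmem
    have e : Y t 2 = (1 - Th (6 * t - j)) * orbit G a j 2 +
        Th (6 * t - j) * orbit G a (j + 1) 2 := by
      rw [hform j t hj, orbit_succ]
      simp only [Pi.add_apply, Pi.smul_apply, smul_eq_mul]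
      ring
    obtain ⟨a1, a2⟩ := hz j
    obtain ⟨b1, b2⟩ := hz (j + 1)
    obtain ⟨c1, c2⟩ := Th_mem (6 * t - j)
    rw [e]
    constructor <;> nlinarith
  · intro hex
    have hk := Nat.find_spec hex
    have h1 := start (Nat.find hex) fun k' hk' => Nat.find_min hex hk'
    have h2 := orbit_s1 h1
    rw [hh _ hk, zero_add] at h2
    refine ⟨((6 * Nat.find hex + 2 : ℕ) : ℝ) / 6, by positivity, ?_⟩
    rw [hat, h2]
    exact mem_image_of_mem _ (mem_box (hxy _).1 (hxy _).2)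

end Vale.Agent.P113
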