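import Vale.Agent.P113.UnivTM

/-! An injective two-stack simulation of a Post-Turing machine: every step leaves a record
of the rule used on top of the first stack; records are skipped as garbage later on. -/

namespace Vale.Agent.P113

open Turing StateTransition

/-- Control: machine state, orientation of the second stack (`true` = right), bounce flag. -/
abbrev Ctl (Λ : Type) := Λ × Bool × Bool

/-- Stack symbols: real tape symbols, or garbage records. -/
abbrev GSym (Γ Λ : Type) := Γ ⊕ (Ctl Λ × Option Γ)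

/-- A configuration of the two-stack machine. -/
structure GC (Γ Λ : Type) where
  /-- control -/
  μ : Ctl Λ
  /-- stack behind the head (without the control on top of it) -/
  X : List (GSym Γ Λ)
  /-- stack ahead of the head -/
  Y : List (GSym Γ Λ)

variable {Γ Λ : Type} [Inhabited Γ] [Inhabited Λ]

/-- Top of a stack, blank for the empty stack. -/
def hd (l : List (GSym Γ Λ)) : GSym Γ Λ := l.headD (Sum.inl default)

/-- Orientation of a direction. -/
def dirB : Dir → Bool
  | Dir.left => false
  | Dir.right => true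

/-- The rule: new control, record, written symbol, and whether the stacks keep their roles. -/
def act (M : TM0.Machine Γ Λ) : Ctl Λ → GSym Γ Λ → Ctl Λ × GSym Γ Λ × GSym Γ Λ × Bool
  | (q, o, true), s => ((q, !o, false), Sum.inr ((q, o, true), none), s, false)
  | (q, o, false), Sum.inr g => ((q, o, false), Sum.inr ((q, o, false), none), Sum.inr g, true)
  | (q, o, false), Sum.inl a =>
    match M q a with
    | none => ((q, o, false), Sum.inr ((q, o, false), some a), Sum.inl a, true)
    | some (q', TM0.Stmt.move d) =>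
      ((q', dirB d, false), Sum.inr ((q, o, false), some a), Sum.inl a, dirB d == o)
    | some (q', TM0.Stmt.write b) =>
      ((q', o, true), Sum.inr ((q, o, false), some a), Sum.inl b, true)

/-- The first stack with the control on top. -/
def GC.full (c : GC Γ Λ) : List (GSym Γ Λ) := Sum.inr (c.μ, none) :: c.X

/-- One step of the two-stack machine. -/
def gstep (M : TM0.Machine Γ Λ) (c : GC Γ Λ) : GC Γ Λ :=
  ⟨(act M c.μ (hd c.Y)).1,
    (act M c.μ (hd c.Y)).2.1 :: (act M c.μ (hd c.Y)).2.2.1 ::
      (bif (act M c.μ (hd c.Y)).2.2.2 then c.full else c.Y.tail),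
    bif (act M c.μ (hd c.Y)).2.2.2 then c.Y.tail else c.full⟩

/-- Recover the control and the symbol read from the record and the written symbol. -/
def gdecode : GSym Γ Λ → GSym Γ Λ → Ctl Λ × GSym Γ Λ
  | Sum.inr (μ, none), s => (μ, s)
  | Sum.inr (μ, some a), _ => (μ, Sum.inl a)
  | Sum.inl _, s => (default, s)

omit [Inhabited Γ] in
theorem gdecode_act (M : TM0.Machine Γ Λ) (μ : Ctl Λ) (s : GSym Γ Λ) :
    gdecode (act M μ s).2.1 (act M μ s).2.2.1 = (μ, s) := by
  obtain ⟨q, o, b⟩ := μ
  cases b
  · cases s with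
    | inr g => rfl
    | inl a =>
      simp only [act]
      rcases M q a with _ | ⟨q', d | b⟩ <;> rfl
  · rfl

/-- The real symbols of a stack. -/
def reals (l : List (GSym Γ Λ)) : ListBlank Γ := ListBlank.mk (l.filterMap Sum.getLeft?)

omit [Inhabited Λ] in
theorem reals_inl (a : Γ) (l : List (GSym Γ Λ)) : reals (Sum.inl a :: l) = (reals l).cons a := rfl

omit [Inhabited Λ] in
theorem reals_inr (g : Ctl Λ × Option Γ) (l : List (GSym Γ Λ)) :
    reals (Sum.inr g :: l) = reals l := rfl

omit [Inhabited Λ] in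
theorem reals_hd_tail (l : List (GSym Γ Λ)) : reals (hd l :: l.tail) = reals l := by
  cases l with
  | nil => exact ListBlank.cons_head_tail (ListBlank.mk [])
  | cons a l => rfl

/-- The tape with given behind and ahead parts. -/
def tapeOf (o : Bool) (B A : ListBlank Γ) : Tape Γ :=
  bif o then ⟨A.head, B, A.tail⟩ else ⟨A.head, A.tail, B⟩

/-- The machine configuration represented by a two-stack configuration. -/
def cfgOf (c : GC Γ Λ) : TM0.Cfg Γ Λ :=
  ⟨c.μ.1, bif c.μ.2.2 then tapeOf (!c.μ.2.1) (reals c.Y) (reals c.X)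
    else tapeOf c.μ.2.1 (reals c.X) (reals c.Y)⟩

/-- Halting rules. -/
def HaltRule (M : TM0.Machine Γ Λ) (μ : Ctl Λ) (s : GSym Γ Λ) : Prop :=
  μ.2.2 = false ∧ ∃ a, s = Sum.inl a ∧ M μ.1 a = none

theorem cfgOf_bounce (M : TM0.Machine Γ Λ) (c : GC Γ Λ) (h : c.μ.2.2 = true) :
    (gstep M c).μ.2.2 = false ∧ cfgOf (gstep M c) = cfgOf c := by
  obtain ⟨⟨q, o, b⟩, X, Y⟩ := c
  cases h
  refine ⟨rfl, ?_⟩
  simp only [cfgOf, gstep, act, cond_false, cond_true, GC.full, reals_inr, reals_hd_tail]

theorem cfgOf_skip (M : TM0.Machine Γ Λ) (c : GC Γ Λ) (h : c.μ.2.2 = false)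
    (g : Ctl Λ × Option Γ) (hg : hd c.Y = Sum.inr g) :
    (gstep M c).μ.2.2 = false ∧ cfgOf (gstep M c) = cfgOf c ∧ (gstep M c).Y = c.Y.tail := by
  obtain ⟨⟨q, o, b⟩, X, Y⟩ := c
  cases h
  have hY : reals Y.tail = reals Y := by
    rw [← reals_hd_tail Y]
    simp only at hg
    rw [hg, reals_inr]
  simp only at hg
  simp only [cfgOf, gstep, hg, act, cond_false, cond_true, GC.full, reals_inr, hY, and_self]

theorem step_cfgOf (M : TM0.Machine Γ Λ) (c : GC Γ Λ) (h : c.μ.2.2 = false)
    (a : Γ) (ha : hd c.Y = Sum.inl a) :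
    TM0.step M (cfgOf c) = (M c.μ.1 a).map fun _ => cfgOf (gstep M c) := by
  obtain ⟨⟨q, o, b⟩, X, Y⟩ := c
  cases h
  simp only at ha
  have hY : reals Y = (reals Y.tail).cons a := by
    rw [← reals_hd_tail Y, ha, reals_inl]
  have hh : (tapeOf o (reals X) (reals Y)).head = a := by
    rw [hY]; cases o <;> simp [tapeOf]
  simp only [cfgOf, TM0.step, cond_false, hh, gstep, ha, act]
  rcases M q a with _ | ⟨q', d | b⟩
  · rfl
  · cases d <;> cases o <;>
      simp [tapeOf, hY, dirB, Tape.move, GC.full, reals_inl, reals_inr]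
  · cases o <;>
      simp [tapeOf, hY, Tape.write, GC.full, reals_inl, reals_inr]

theorem exists_real (M : TM0.Machine Γ Λ) (c : GC Γ Λ) :
    ∃ j a, ((gstep M)^[j] c).μ.2.2 = false ∧ hd ((gstep M)^[j] c).Y = Sum.inl a ∧
      cfgOf ((gstep M)^[j] c) = cfgOf c := by
  have key : ∀ (n : ℕ) (c : GC Γ Λ), c.Y.length ≤ n → c.μ.2.2 = false →
      ∃ j a, ((gstep M)^[j] c).μ.2.2 = false ∧ hd ((gstep M)^[j] c).Y = Sum.inl a ∧
        cfgOf ((gstep M)^[j] c) = cfgOf c := by
    intro n
    induction n with
    | zero =>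
      intro c hl h
      refine ⟨0, default, h, ?_, rfl⟩
      have : c.Y = [] := List.eq_nil_of_length_eq_zero (by omega)
      simp [this, hd]
    | succ n ih =>
      intro c hl h
      rcases e : hd c.Y with a | g
      · exact ⟨0, a, h, e, rfl⟩
      · obtain ⟨h1, h2, h3⟩ := cfgOf_skip M c h g e
        obtain ⟨j, a, k1, k2, k3⟩ := ih (gstep M c) (by rw [h3, List.length_tail]; omega) h1
        exact ⟨j + 1, a, k1, k2, k3.trans h2⟩
  rcases e : c.μ.2.2 with _ | _
  · exact key _ c le_rfl e
  · obtain ⟨h1, h2⟩ := cfgOf_bounce M c e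
    obtain ⟨j, a, k1, k2, k3⟩ := key _ (gstep M c) le_rfl h1
    exact ⟨j + 1, a, k1, k2, k3.trans h2⟩

theorem dom_of_step {σ : Type} {f : σ → Option σ} {a b : σ} (h : f a = some b) :
    (eval f a).Dom ↔ (eval f b).Dom := by
  rw [reaches_eval (Relation.ReflTransGen.single (show b ∈ f a from h))]

theorem dom_of_none {σ : Type} {f : σ → Option σ} {a : σ} (h : f a = none) : (eval f a).Dom :=
  Part.dom_iff_mem.2 ⟨a, mem_eval.2 ⟨Relation.ReflTransGen.refl, h⟩⟩

theorem halts_iff (M : TM0.Machine Γ Λ) (c : GC Γ Λ) :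
    (∃ k, HaltRule M ((gstep M)^[k] c).μ (hd ((gstep M)^[k] c).Y)) ↔
      (eval (TM0.step M) (cfgOf c)).Dom := by
  constructor
  · rintro ⟨k, hk⟩
    induction k generalizing c with
    | zero =>
      obtain ⟨h, a, ha, hM⟩ := hk
      apply dom_of_none
      rw [step_cfgOf M c h a ha]
      simp only [Function.iterate_zero, id] at hM
      rw [hM]; rfl
    | succ k ih =>
      have := ih (gstep M c) hk
      rcases e : c.μ.2.2 with _ | _
      · rcases e' : hd c.Y with a | g
        · have hs := step_cfgOf M c e a e'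
          rcases hM : M c.μ.1 a with _ | z
          · rw [hM] at hs
            exact dom_of_none hs
          · rw [hM] at hs
            exact (dom_of_step hs).2 this
        · rwa [(cfgOf_skip M c e g e').2.1] at this
      · rwa [(cfgOf_bounce M c e).2] at this
  · intro h
    obtain ⟨b, hb⟩ := Part.dom_iff_mem.1 h
    obtain ⟨hr, hn⟩ := mem_eval.1 hb
    have key : ∀ a, Reaches (TM0.step M) a b → ∀ c : GC Γ Λ, cfgOf c = a →
        ∃ k, HaltRule M ((gstep M)^[k] c).μ (hd ((gstep M)^[k] c).Y) := by
      intro a ha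
      induction ha using Relation.ReflTransGen.head_induction_on with
      | refl =>
        intro c hc
        obtain ⟨j, s, k1, k2, k3⟩ := exists_real M c
        refine ⟨j, k1, s, k2, ?_⟩
        have hs := step_cfgOf M _ k1 s k2
        rw [k3, hc, hn] at hs
        exact Option.map_eq_none_iff.1 hs.symm
      | head hab _ ih =>
        intro c hc
        obtain ⟨j, s, k1, k2, k3⟩ := exists_real M c
        have hs := step_cfgOf M _ k1 s k2
        rw [k3, hc, Option.mem_def.1 hab] at hs
        obtain ⟨_, _, e⟩ := Option.map_eq_some_iff.1 hs.symm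
        obtain ⟨k, hk⟩ := ih _ e
        refine ⟨k + 1 + j, ?_⟩
        rw [Function.iterate_add_apply, Function.iterate_succ_apply]
        exact hk
    exact key _ hr c rfl

/-- The initial two-stack configuration. -/
def ginit (l : List Γ) : GC Γ Λ := ⟨(default, true, false), [], l.map Sum.inl⟩

theorem cfgOf_ginit (l : List Γ) : cfgOf (ginit l : GC Γ Λ) = TM0.init l := by
  have : reals (l.map Sum.inl : List (GSym Γ Λ)) = ListBlank.mk l := by
    unfold reals
    congr 1
    induction l with
    | nil => rfl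
    | cons a l ih => simp only [List.map_cons, List.filterMap_cons, Sum.getLeft?_inl, ih]
  simp only [cfgOf, ginit, cond_false, this, tapeOf, cond_true]
  rfl

end Vale.Agent.P113
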