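import Vale.Agent.P113.Bump
import Vale.Agent.P113.Shear

/-! Grid-affine functions of two variables and the time pulses. -/

namespace Vale.Agent.P113

open Set

/-- The bump `s^k π_4(4 (N s - m) + 1)`: equal to `κ s^k` when `N s - m ∈ [0, 1/2]` and to zero when
`N s - m ∉ (-1/2, 1)`. -/
def cellB (k N m : ℕ) : Bump := (k, .inr 4, 4 * N, 4 * m - 1)

theorem cellB_valid (k : ℕ) {N m : ℕ} (h : m < N) : (cellB k N m).Valid := by
  refine ⟨?_, by norm_num⟩
  have : (0 : ℚ) < N := by exact_mod_cast lt_of_le_of_lt (Nat.zero_le _) h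
  positivity

theorem cellB_eval (k N m : ℕ) (s : ℝ) :
    (cellB k N m).eval s = s ^ k * piL 4 (4 * ((N : ℝ) * s - m) + 1) := by
  simp only [cellB, Bump.eval]
  push_cast
  congr 2
  ring

theorem per_cellB (k : ℕ) {N m m0 : ℕ} (hm : m < N) (hm0 : m0 < N) {s : ℝ}
    (hs : (N : ℝ) * s - m0 ∈ Icc (0 : ℝ) (1 / 2)) :
    per (cellB k N m).eval s = if m = m0 then kappa * s ^ k else 0 := by
  have key : ∀ j : ℤ, (m0 : ℤ) + N * j - m ≠ 0 → (cellB k N m).eval (s + j) = 0 := by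
    intro j hj
    rw [cellB_eval]
    have e : (N : ℝ) * (s + j) - m = ((N : ℝ) * s - m0) + (((m0 : ℤ) + N * j - m : ℤ) : ℝ) := by
      push_cast; ring
    rw [e]
    rcases lt_or_gt_of_ne hj with h | h
    · have : (((m0 : ℤ) + N * j - m : ℤ) : ℝ) ≤ -1 := by exact_mod_cast Int.le_sub_one_of_lt h
      rw [piL_of_le (by norm_num) (by linarith [hs.2]), mul_zero]
    · have : (1 : ℝ) ≤ (((m0 : ℤ) + N * j - m : ℤ) : ℝ) := by exact_mod_cast h
      rw [piL_of_ge (by norm_num) (by linarith [hs.1]), mul_zero]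
  have hN : (0 : ℤ) < N := by exact_mod_cast lt_of_le_of_lt (Nat.zero_le _) hm
  have hj0 : ∀ j : ℤ, j ≠ 0 → (m0 : ℤ) + N * j - m ≠ 0 := by
    intro j hj h
    have h1 : (m : ℤ) < N := by exact_mod_cast hm
    have h2 : (m0 : ℤ) < N := by exact_mod_cast hm0
    rcases lt_or_gt_of_ne hj with h3 | h3
    · have : (N : ℤ) * j ≤ N * (-1) := mul_le_mul_of_nonneg_left (by omega) hN.le
      omega
    · have : (N : ℤ) * 1 ≤ N * j := mul_le_mul_of_nonneg_left (by omega) hN.le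
      omega
  unfold per
  rw [tsum_eq_single 0 fun j hj => key j (hj0 j hj)]
  split_ifs with h
  · subst h
    rw [cellB_eval, Int.cast_zero, add_zero,
      piL_of_mem (by linarith [hs.1]) (by linarith [hs.2]), mul_comm]
  · refine key 0 ?_
    have : (m : ℤ) ≠ m0 := by exact_mod_cast h
    omega

/-- The function of two variables, `1`-periodic in each, which is `a + b s + c t` on the cell
`(m₁, m₂)` of the grid, `(a, b, c) = T m₁ m₂`. -/
noncomputable def grid (N : ℕ) (T : ℕ → ℕ → ℚ × ℚ × ℚ) (s t : ℝ) : ℝ :=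
  ∑ m1 ∈ Finset.range N, ∑ m2 ∈ Finset.range N, kappa ^ (-2 : ℤ) *
    ((T m1 m2).1 * (per (cellB 0 N m1).eval s * per (cellB 0 N m2).eval t) +
      (T m1 m2).2.1 * (per (cellB 1 N m1).eval s * per (cellB 0 N m2).eval t) +
      (T m1 m2).2.2 * (per (cellB 0 N m1).eval s * per (cellB 1 N m2).eval t))

theorem grid_eq {N : ℕ} {T : ℕ → ℕ → ℚ × ℚ × ℚ} {s t v : ℝ} (h : CellAff N T s t v) :
    grid N T s t = v := by
  obtain ⟨a, b, ha, hb, hs, ht, rfl⟩ := h
  unfold grid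
  rw [Finset.sum_eq_single_of_mem a (Finset.mem_range.2 ha),
    Finset.sum_eq_single_of_mem b (Finset.mem_range.2 hb)]
  · rw [per_cellB 0 ha ha hs, per_cellB 1 ha ha hs, per_cellB 0 hb hb ht, per_cellB 1 hb hb ht]
    simp only [if_true]
    have := kappa_ne
    rw [zpow_neg]
    field_simp
  · intro m2 hm2 hne
    rw [per_cellB 0 (Finset.mem_range.1 hm2) hb ht, per_cellB 1 (Finset.mem_range.1 hm2) hb ht]
    simp [hne]
  · intro m1 hm1 hne
    refine Finset.sum_eq_zero fun m2 _ => ?_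
    rw [per_cellB 0 (Finset.mem_range.1 hm1) ha hs, per_cellB 1 (Finset.mem_range.1 hm1) ha hs]
    simp [hne]

theorem grid_one (a b c : ℚ) {s t : ℝ} (hs : s ∈ Icc (0 : ℝ) (1 / 2)) (ht : t ∈ Icc (0 : ℝ) (1 / 2)) :
    grid 1 (fun _ _ => (a, b, c)) s t = a + b * s + c * t :=
  grid_eq ⟨0, 0, one_pos, one_pos, by simpa using hs, by simpa using ht, rfl⟩

/-- The bump `ρ(12 t - (2k+1))`, supported in `[k/6, (k+1)/6]`. -/
def pulse (k : ℕ) : Bump := (0, .inl 0, 12, 2 * k + 1)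

theorem pulse_valid (k : ℕ) : (pulse k).Valid := by
  show (12 : ℚ) ≠ 0
  norm_num

/-- The normalized pulse on `[0,1]`. -/
noncomputable def th (s : ℝ) : ℝ := 2 * kappa⁻¹ * rho (2 * s - 1)

/-- The primitive of `th`. -/
noncomputable def Th (s : ℝ) : ℝ := kappa⁻¹ * sigma (2 * s - 1)

theorem hasDerivAt_Th (s : ℝ) : HasDerivAt Th (th s) s := by
  have a1 : HasDerivAt (fun s : ℝ => 2 * s - 1) 2 s := by
    simpa using ((hasDerivAt_id s).const_mul (2 : ℝ)).sub_const (1 : ℝ)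
  have := ((hasDerivAt_sigma (2 * s - 1)).comp s a1).const_mul kappa⁻¹
  have e : th s = kappa⁻¹ * (rho (2 * s - 1) * 2) := by unfold th; ring
  rw [e]
  exact this

theorem Th_of_le {s : ℝ} (h : s ≤ 0) : Th s = 0 := by
  unfold Th; rw [sigma_of_le (by linarith), mul_zero]

theorem Th_of_ge {s : ℝ} (h : 1 ≤ s) : Th s = 1 := by
  unfold Th; rw [sigma_of_ge (by linarith), inv_mul_cancel₀ kappa_ne]

theorem Th_mem (s : ℝ) : Th s ∈ Icc (0 : ℝ) 1 := by
  have h := kappa_pos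
  refine ⟨mul_nonneg (inv_nonneg.2 h.le) (sigma_nonneg _), ?_⟩
  unfold Th
  rw [inv_mul_le_iff₀ h, mul_one]
  exact sigma_le _

theorem th_of_le {s : ℝ} (h : s ≤ 0) : th s = 0 := by
  unfold th; rw [rho_of_le (by linarith), mul_zero]

theorem th_of_ge {s : ℝ} (h : 1 ≤ s) : th s = 0 := by
  unfold th; rw [rho_of_ge (by linarith), mul_zero]

theorem pulse_eval (k : ℕ) (t : ℝ) :
    12 * kappa⁻¹ * (pulse k).eval t = 6 * th (6 * t - k) := by
  simp only [pulse, Bump.eval, th, iteratedDeriv_zero, pow_zero, one_mul]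
  push_cast
  rw [show (12 : ℝ) * t - (2 * k + 1) = 2 * (6 * t - k) - 1 by ring]
  ring

theorem th_shift {s : ℝ} (hs : s ∈ Icc (0 : ℝ) 1) {i : ℤ} (hi : i ≠ 0) : th (s + i) = 0 := by
  rcases lt_or_gt_of_ne hi with h | h
  · have : (i : ℝ) ≤ -1 := by exact_mod_cast Int.le_sub_one_of_lt h
    exact th_of_le (by linarith [hs.2])
  · have : (1 : ℝ) ≤ i := by exact_mod_cast h
    exact th_of_ge (by linarith [hs.1])

/-- The loading pulse. -/
noncomputable def p0 (t : ℝ) : ℝ := 12 * kappa⁻¹ * (pulse 0).eval t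

/-- The periodic pulses. -/
noncomputable def pp (k : ℕ) (t : ℝ) : ℝ := 12 * kappa⁻¹ * per (pulse k).eval t

theorem p0_slot (j : ℕ) {t : ℝ} (ht : 6 * t - j ∈ Icc (0 : ℝ) 1) :
    p0 t = if j = 0 then 6 * th (6 * t - j) else 0 := by
  unfold p0
  rw [pulse_eval]
  split_ifs with h
  · subst h; rfl
  · have := th_shift ht (i := (j : ℤ)) (by exact_mod_cast h)
    rw [show 6 * t - ((0 : ℕ) : ℝ) = 6 * t - j + ((j : ℤ) : ℝ) by push_cast; ring, this, mul_zero]

theorem pp_slot {k : ℕ} (hk : k < 6) (j : ℕ) {t : ℝ} (ht : 6 * t - j ∈ Icc (0 : ℝ) 1) :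
    pp k t = if j % 6 = k then 6 * th (6 * t - j) else 0 := by
  unfold pp per
  rw [← tsum_mul_left]
  have e : ∀ m : ℤ, 12 * kappa⁻¹ * (pulse k).eval (t + m) =
      6 * th (6 * t - j + ((6 * m + j - k : ℤ) : ℝ)) := by
    intro m
    rw [pulse_eval]
    push_cast
    congr 2
    ring
  simp only [e]
  split_ifs with h
  · rw [tsum_eq_single (-((j / 6 : ℕ) : ℤ))]
    · have : (6 * (-((j / 6 : ℕ) : ℤ)) + j - k : ℤ) = 0 := by omega
      rw [this, Int.cast_zero, add_zero]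
    · intro m hm
      rw [th_shift ht (by omega), mul_zero]
  · refine (tsum_congr fun m => ?_).trans tsum_zero
    rw [th_shift ht (by omega), mul_zero]

end Vale.Agent.P113
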