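import Vale.Agent.P113.Defs
import Mathlib.Computability.RE

/-! The halting problem of the machines of the statement is recursively enumerable. -/

namespace Vale.Agent.P113

/-- Machine descriptions. -/
abbrev MCode := ℕ × ℕ × ℕ × ℕ × List Bool × List (List (ℕ × ℕ × ℕ))

/-- List configurations: state, cells left of the head, cells from the head on. -/
abbrev LCfg := ℕ × List ℕ × List ℕ

/-- The blank of a description. -/
def MCode.blank (m : MCode) : ℕ := m.2.2.2.1

/-- Is the state halting? -/
def MCode.halted (m : MCode) (c : LCfg) : Bool := m.2.2.2.2.1.getD c.1 false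

/-- The table entry used in a configuration. -/
def MCode.entry (m : MCode) (c : LCfg) : ℕ × ℕ × ℕ :=
  (m.2.2.2.2.2.getD c.1 []).getD ((c.2.2[0]?).getD m.blank) (0, 0, 0)

/-- One step on list configurations. -/
def MCode.step (m : MCode) (c : LCfg) : LCfg :=
  bif m.halted c then c else
    if (m.entry c).2.2 = 0 then
      ((m.entry c).1, c.2.1.tail, (c.2.1[0]?).getD m.blank :: (m.entry c).2.1 :: c.2.2.tail)
    else if (m.entry c).2.2 = 1 then ((m.entry c).1, c.2.1, (m.entry c).2.1 :: c.2.2.tail)
    else ((m.entry c).1, (m.entry c).2.1 :: c.2.1, c.2.2.tail)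

theorem primrec_blank : Primrec MCode.blank :=
  Primrec.fst.comp (Primrec.snd.comp (Primrec.snd.comp Primrec.snd))

theorem primrec_halted : Primrec₂ MCode.halted :=
  (Primrec.list_getD false).comp
    (Primrec.fst.comp (Primrec.snd.comp (Primrec.snd.comp (Primrec.snd.comp
      (Primrec.snd.comp Primrec.fst))))) (Primrec.fst.comp Primrec.snd)

theorem primrec_entry : Primrec₂ MCode.entry := by
  have h1 : Primrec fun z : MCode × LCfg => z.1.2.2.2.2.2.getD z.2.1 [] :=
    (Primrec.list_getD []).comp
      (Primrec.snd.comp (Primrec.snd.comp (Primrec.snd.comp (Primrec.snd.comp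
        (Primrec.snd.comp Primrec.fst))))) (Primrec.fst.comp Primrec.snd)
  have h2 : Primrec fun z : MCode × LCfg => (z.2.2.2[0]?).getD z.1.blank :=
    Primrec.option_getD.comp
      (Primrec.list_getElem?.comp (Primrec.snd.comp (Primrec.snd.comp Primrec.snd))
        (Primrec.const 0)) (primrec_blank.comp Primrec.fst)
  exact (Primrec.list_getD (0, 0, 0)).comp h1 h2

theorem primrec_step : Primrec₂ MCode.step := by
  have he : Primrec fun z : MCode × LCfg => z.1.entry z.2 := primrec_entry
  have hq : Primrec fun z : MCode × LCfg => (z.1.entry z.2).1 := Primrec.fst.comp he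
  have hb : Primrec fun z : MCode × LCfg => (z.1.entry z.2).2.1 :=
    Primrec.fst.comp (Primrec.snd.comp he)
  have hm : Primrec fun z : MCode × LCfg => (z.1.entry z.2).2.2 :=
    Primrec.snd.comp (Primrec.snd.comp he)
  have hL : Primrec fun z : MCode × LCfg => z.2.2.1 :=
    Primrec.fst.comp (Primrec.snd.comp Primrec.snd)
  have hR : Primrec fun z : MCode × LCfg => z.2.2.2.tail :=
    Primrec.list_tail.comp (Primrec.snd.comp (Primrec.snd.comp Primrec.snd))
  have h0 : Primrec fun z : MCode × LCfg => (z.2.2.1[0]?).getD z.1.blank :=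
    Primrec.option_getD.comp (Primrec.list_getElem?.comp hL (Primrec.const 0))
      (primrec_blank.comp Primrec.fst)
  refine Primrec.cond primrec_halted Primrec.snd ?_
  refine Primrec.ite (Primrec.eq.comp hm (Primrec.const 0)) ?_ ?_
  · exact hq.pair ((Primrec.list_tail.comp hL).pair
      (Primrec.list_cons.comp h0 (Primrec.list_cons.comp hb hR)))
  refine Primrec.ite (Primrec.eq.comp hm (Primrec.const 1)) ?_ ?_
  · exact hq.pair (hL.pair (Primrec.list_cons.comp hb hR))
  · exact hq.pair ((Primrec.list_cons.comp hb hL).pair hR)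

/-- Does the described machine halt within `k` steps? -/
def haltsIn (i : Input) (k : ℕ) : Bool :=
  MCode.halted i.1 ((MCode.step i.1)^[k] (i.1.2.2.1, [], i.2))

theorem primrec_run : Primrec fun z : (MCode × LCfg) × ℕ => (MCode.step z.1.1)^[z.2] z.1.2 := by
  have h : Primrec₂ fun (z : (MCode × LCfg) × ℕ) (c : LCfg) => MCode.step z.1.1 c :=
    primrec_step.comp (Primrec.fst.comp (Primrec.fst.comp Primrec.fst)) Primrec.snd
  exact Primrec.nat_iterate Primrec.snd (Primrec.snd.comp Primrec.fst) h

theorem primrec_haltsIn : Primrec₂ haltsIn := by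
  have hm : Primrec fun z : Input × ℕ => (z.1.1 : MCode) := Primrec.fst.comp Primrec.fst
  have h0 : Primrec fun z : Input × ℕ => ((z.1.1.2.2.1, [], z.1.2) : LCfg) :=
    (Primrec.fst.comp (Primrec.snd.comp (Primrec.snd.comp hm))).pair
      ((Primrec.const []).pair (Primrec.snd.comp Primrec.fst))
  have h1 := primrec_run.comp ((hm.pair h0).pair Primrec.snd)
  have h2 := primrec_halted.comp hm h1
  exact h2.of_eq fun _ => rfl

/-- A list configuration describes a configuration of the machine. -/
def Describes (M : Machine) (c : LCfg) (d : Fin M.nQ × (ℤ → Fin M.nS) × ℤ) : Prop :=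
  c.1 = d.1 ∧ (∀ i : ℕ, (c.2.1[i]?).getD M.blank = d.2.1 (d.2.2 - 1 - i)) ∧
    ∀ i : ℕ, (c.2.2[i]?).getD M.blank = d.2.1 (d.2.2 + i)

theorem halted_eq (M : Machine) (w : List (Fin M.nS)) {c : LCfg}
    {d : Fin M.nQ × (ℤ → Fin M.nS) × ℤ} (h : Describes M c d) :
    MCode.halted (M.input w).1 c = M.halting d.1 := by
  simp [MCode.halted, Machine.input, h.1]

theorem entry_eq (M : Machine) (w : List (Fin M.nS)) {c : LCfg}
    {d : Fin M.nQ × (ℤ → Fin M.nS) × ℤ} (h : Describes M c d) :
    MCode.entry (M.input w).1 c = (((M.δ d.1 (d.2.1 d.2.2)).1 : ℕ),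
      ((M.δ d.1 (d.2.1 d.2.2)).2.1 : ℕ), ((M.δ d.1 (d.2.1 d.2.2)).2.2 : ℕ)) := by
  have h0 := h.2.2 0
  simp only [Nat.cast_zero, add_zero] at h0
  have hb : MCode.blank (M.input w).1 = M.blank := rfl
  unfold MCode.entry
  rw [hb, h0]
  simp [Machine.input, h.1]

theorem describes_step (M : Machine) (w : List (Fin M.nS)) {c : LCfg}
    {d : Fin M.nQ × (ℤ → Fin M.nS) × ℤ} (h : Describes M c d) :
    Describes M (MCode.step (M.input w).1 c) (M.step d) := by
  have hb : MCode.blank (M.input w).1 = M.blank := rfl
  have h1 := halted_eq M w h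
  have h2 := entry_eq M w h
  obtain ⟨q, tape, p⟩ := d
  obtain ⟨q', L, R⟩ := c
  obtain ⟨hq, hL, hR⟩ := h
  simp only at hq hL hR h1 h2
  unfold MCode.step
  rw [h1, h2, hb]
  simp only [Machine.step]
  cases hh : M.halting q
  swap
  · exact ⟨hq, hL, hR⟩
  simp only [cond_false, Bool.false_eq_true, if_false]
  generalize M.δ q (tape p) = e
  obtain ⟨q₁, b, mv⟩ := e
  have tl : ∀ (l : List ℕ) (i : ℕ), l.tail[i]? = l[i + 1]? := fun l i => List.getElem?_tail
  have hne : ∀ z : ℤ, z ≠ p → Function.update tape p b z = tape z :=
    fun z hz => Function.update_of_ne hz _ _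
  have heq : ∀ z : ℤ, z = p → Function.update tape p b z = b :=
    fun z hz => by rw [hz, Function.update_self]
  fin_cases mv
  · simp only [if_true]
    refine ⟨rfl, fun i => ?_, fun i => ?_⟩
    · simp only [tl, hL]
      rw [hne _ (by push_cast; omega)]
      congr 2
      push_cast
      ring
    · rcases i with _ | _ | i
      · simp only [List.getElem?_cons_zero, Option.getD_some, hL]
        rw [hne _ (by push_cast; omega)]
        congr 2
        push_cast
        ring
      · simp only [zero_add, List.getElem?_cons_succ, List.getElem?_cons_zero, Option.getD_some]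
        rw [heq _ (by push_cast; omega)]
      · simp only [List.getElem?_cons_succ, tl, hR]
        rw [hne _ (by push_cast; omega)]
        congr 2
        push_cast
        ring
  · simp only [one_ne_zero, if_false, if_true]
    refine ⟨rfl, fun i => ?_, fun i => ?_⟩
    · simp only [hL]
      rw [hne _ (by push_cast; omega)]
      congr 2
      push_cast
      ring
    · rcases i with _ | i
      · simp only [List.getElem?_cons_zero, Option.getD_some]
        rw [heq _ (by push_cast; omega)]
      · simp only [List.getElem?_cons_succ, tl, hR]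
        rw [hne _ (by push_cast; omega)]
        congr 2
        push_cast
        ring
  · simp only [OfNat.ofNat_ne_zero, OfNat.ofNat_ne_one, if_false]
    refine ⟨rfl, fun i => ?_, fun i => ?_⟩
    · rcases i with _ | i
      · simp only [List.getElem?_cons_zero, Option.getD_some]
        rw [heq _ (by push_cast; omega)]
      · simp only [List.getElem?_cons_succ, hL]
        rw [hne _ (by push_cast; omega)]
        congr 2
        push_cast
        ring
    · simp only [tl, hR]
      rw [hne _ (by push_cast; omega)]
      congr 2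
      push_cast
      ring

theorem describes_init (M : Machine) (w : List (Fin M.nS)) :
    Describes M ((M.input w).1.2.2.1, [], (M.input w).2) (M.init w) := by
  refine ⟨rfl, fun i => ?_, fun i => ?_⟩
  · have : ¬ (0 : ℤ) ≤ 0 - 1 - i := by omega
    simp only [Machine.init, if_neg this]
    rfl
  · have : (0 : ℤ) ≤ 0 + i := by omega
    simp only [Machine.init, if_pos this, Machine.input]
    simp only [zero_add, Int.toNat_natCast, List.getElem?_map, List.getD_eq_getElem?_getD]
    cases w[i]? <;> rfl

theorem haltsIn_eq (M : Machine) (w : List (Fin M.nS)) (k : ℕ) :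
    haltsIn (M.input w) k = M.halting (M.step^[k] (M.init w)).1 := by
  refine halted_eq M w ?_
  induction k with
  | zero => exact describes_init M w
  | succ k ih =>
    rw [Function.iterate_succ_apply', Function.iterate_succ_apply']
    exact describes_step M w ih

theorem exists_re_halts : ∃ p : ℕ → Prop, REPred p ∧
    ∀ (M : Machine) (w : List (Fin M.nS)), p (Encodable.encode (M.input w)) ↔ M.Halts w := by
  let g : ℕ → ℕ → Bool := fun n k =>
    (((Encodable.decode n : Option Input)).map fun i => haltsIn i k).getD false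
  have hg : Primrec₂ g :=
    Primrec.option_getD.comp
      (Primrec.option_map (Primrec.decode.comp Primrec.fst)
        (primrec_haltsIn.comp Primrec.snd (Primrec.snd.comp Primrec.fst)))
      (Primrec.const false)
  have hr : Partrec fun n => Nat.rfind fun k => (Part.some (g n k) : Part Bool) :=
    Partrec.rfind hg.to_comp.partrec₂
  refine ⟨fun n => (Nat.rfind fun k => (Part.some (g n k) : Part Bool)).Dom, hr.dom_re,
    fun M w => ?_⟩
  have hg' : ∀ k, g (Encodable.encode (M.input w)) k = M.halting (M.step^[k] (M.init w)).1 := by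
    intro k
    simp only [g, Encodable.encodek, Option.map_some, Option.getD_some, haltsIn_eq]
  refine Nat.rfind_dom.trans ?_
  constructor
  · rintro ⟨k, hk, _⟩
    exact ⟨k, by rw [← hg']; exact (Part.mem_some_iff.1 hk).symm⟩
  · rintro ⟨k, hk⟩
    exact ⟨k, Part.mem_some_iff.2 (by rw [hg', hk]), fun _ => trivial⟩

end Vale.Agent.P113
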