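import Vale.Agent.P113.Flow
import Vale.Agent.P113.Adm
import Vale.Agent.P113.Compiler
import Vale.Agent.P113.Descend

/-! Assembly of the proof. -/

namespace Vale.Agent.P113

open Set
open scoped ContDiff

theorem adm_grid (N : ℕ) (T : ℕ → ℕ → ℚ × ℚ × ℚ) (i j : Fin 3) :
    Adm fun _ _ x => grid N T (x i) (x j) := by
  unfold grid
  refine Adm.sum _ fun m1 h1 => Adm.sum _ fun m2 h2 => ?_
  have a := fun k => Adm.space i _ (cellB_valid k (Finset.mem_range.1 h1))
  have b := fun k => Adm.space j _ (cellB_valid k (Finset.mem_range.1 h2))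
  exact (Adm.kap _).mul (((((a 0).mul (b 0)).smul _).add (((a 1).mul (b 0)).smul _)).add
    (((a 0).mul (b 1)).smul _))

theorem adm_pp (k : ℕ) : Adm fun _ t _ => pp k t :=
  (((Adm.rat 12).mul Adm.kapInv).mul (Adm.time _ (pulse_valid k))).congr fun _ _ _ => by
    simp [pp]

theorem adm_Uper {G : ℕ → ℝ → ℝ → ℝ} (hG : ∀ k i j, Adm fun _ _ x => G k (x i) (x j)) (i : Fin 3) :
    Adm fun _ t x => Uper G i t x := by
  fin_cases i
  · exact ((adm_pp 2).mul (hG 2 1 2)).add ((adm_pp 4).mul (hG 4 1 2))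
  · exact (adm_pp 3).mul (hG 3 0 2)
  · exact ((adm_pp 1).mul (hG 1 0 1)).add ((adm_pp 5).mul (hG 5 0 1))

/-- The periodic part of the force. -/
noncomputable def Fper (G : ℕ → ℝ → ℝ → ℝ) (i : Fin 3) (ν t : ℝ) (x : R3) : ℝ :=
  dtR (Uper G i) t x - ν * ∑ j, dxR j (dxR j (Uper G i)) t x

theorem adm_Fper {G : ℕ → ℝ → ℝ → ℝ} (hG : ∀ k i j, Adm fun _ _ x => G k (x i) (x j)) (i : Fin 3) :
    Adm (Fper G i) :=
  (adm_Uper hG i).dt.sub (Adm.nu.mul (Adm.sum _ fun j _ => ((adm_Uper hG i).dx j).dx j))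

/-- The bump `ρ'(12 t - 1)` of the loading term. -/
def loadB : Bump := (0, .inl 1, 12, 1)

theorem loadB_valid : loadB.Valid := by
  show (12 : ℚ) ≠ 0
  norm_num

theorem loadB_eq_zero (t : ℝ) (ht : 1 ≤ t) : loadB.eval t = 0 := by
  simp only [loadB, Bump.eval]
  rw [iteratedDeriv_rho_of_le, mul_zero]
  push_cast
  rw [abs_of_nonneg (by linarith)]
  linarith

theorem contDiff_p0 : ContDiff ℝ ∞ p0 := contDiff_const.mul (pulse_valid 0).cs.1

theorem hasDerivAt_p0 (t : ℝ) : HasDerivAt p0 (144 * kappa⁻¹ * loadB.eval t) t := by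
  have h := (((pulse_valid 0).cs.1.differentiable (by simp)) t).hasDerivAt.const_mul
    (12 * kappa⁻¹)
  have e : deriv (pulse 0).eval t = 12 * loadB.eval t := by
    unfold pulse loadB
    rw [deriv_eval_inl]
    simp
  rw [e] at h
  have e2 : 144 * kappa⁻¹ * loadB.eval t = 12 * kappa⁻¹ * (12 * loadB.eval t) := by ring
  rw [e2]
  exact h

theorem dxR_Uvel (G : ℕ → ℝ → ℝ → ℝ) (a : R3) (i j : Fin 3) :
    dxR j (Uvel G a i) = dxR j (Uper G i) := by
  funext t x
  unfold dxR Uvel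
  exact deriv_const_add _

theorem dtR_Uvel {G : ℕ → ℝ → ℝ → ℝ} (hG : ∀ k i j, Adm fun _ _ x => G k (x i) (x j)) (a : R3)
    (i : Fin 3) (t : ℝ) (x : R3) :
    dtR (Uvel G a i) t x = a i * (144 * kappa⁻¹ * loadB.eval t) + dtR (Uper G i) t x :=
  (((hasDerivAt_p0 t).const_mul (a i)).add
    (((adm_Uper hG i).differentiable_time 0 x) t).hasDerivAt).deriv

theorem main : ∃ (a lo hi : Fin 3 → ℚ) (C : Input → Fin 3 → List Term), (∀ i, lo i < hi i) ∧
    ∀ ν : ℝ, 0 < ν → IsCompiler ν C ∧ ∀ (M : Machine) (w : List (Fin M.nS)),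
      ∃ (f u : Fin 3 → ℝ → T3 → ℝ) (p : ℝ → T3 → ℝ) (X : ℝ → T3),
        IsForce ν (C (M.input w)) f ∧ (∀ i, IsSmooth (f i)) ∧
        (∀ i, IsSmooth (u i)) ∧ IsSmooth p ∧ (∀ T, 0 < T → IsClassical ν f T u p) ∧
        (∀ T, 0 < T → ∀ v q, IsClassical ν f T v q →
          ∀ t ∈ Icc 0 T, ∀ x, (∀ i, v i t x = u i t x) ∧ q t x = p t x) ∧
        IsTrajectory u (proj fun i => a i) X ∧
        (∀ X', IsTrajectory u (proj fun i => a i) X' → ∀ t, 0 ≤ t → X' t = X t) ∧
        ((∃ t, 0 ≤ t ∧ X t ∈ proj '' univ.pi fun i => Ioo (lo i : ℝ) (hi i)) ↔ M.Halts w) := by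
  obtain ⟨N, T1, T2, T3', x₀, y₀, hx₀, hy₀, hsys⟩ := exists_shear_input
  let G : ℕ → ℝ → ℝ → ℝ := fun k =>
    if k = 1 then grid N T1 else if k = 2 then grid N T2 else if k = 3 then grid N T3' else
    if k = 4 then grid 1 fun _ _ => (0, -1, 1) else grid 1 fun _ _ => (0, -1, 0)
  have hG : ∀ k i j, Adm fun _ _ x => G k (x i) (x j) := by
    intro k i j
    simp only [G]
    split_ifs <;> exact adm_grid _ _ _ _
  choose L hL hLsum using fun i => (adm_Fper hG i).exists_list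
  let c : Input → Fin 3 → ℚ := fun z => ![(144 : ℕ) * x₀ z, (144 : ℕ) * y₀ z, 0]
  have hc : ∀ i, Computable fun z => c z i := by
    intro i
    fin_cases i
    · exact hx₀ 144
    · exact hy₀ 144
    · exact Computable.const 0
  obtain ⟨C, hC, hCsum⟩ := exists_compiler L (fun i τ h => (hL i τ h).1)
    (fun i τ h => (hL i τ h).2) c hc (-1) loadB loadB_valid 1 loadB_eq_zero
  refine ⟨0, ![-1, -1, 1 / 2], ![2, 2, 1], C, fun i => by fin_cases i <;> norm_num,
    fun ν hν => ⟨hC ν, fun M w => ?_⟩⟩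
  obtain ⟨x, y, halt, hx0, hy0, hxy, hhalt, hcell⟩ := hsys M w
  let a : R3 := ![x 0, y 0, 0]
  let F : Fin 3 → ℝ → R3 → ℝ := fun i t v =>
    a i * (144 * kappa⁻¹ * loadB.eval t) + Fper G i ν t v
  obtain ⟨u, f, hu, hf, su, sf, s0, hcl, htraj⟩ := descend ν (Uvel G a) F
    (fun i => (contDiff_const.mul (contDiff_p0.comp contDiff_fst)).add
      ((adm_Uper hG i).contDiff ν))
    (fun i => (contDiff_const.mul (contDiff_const.mul
      (loadB_valid.cs.1.comp contDiff_fst))).add ((adm_Fper hG i).contDiff ν))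
    (fun i t v m => by
      unfold Uvel
      rw [(adm_Uper hG i).periodic_space ν t v m])
    (fun i t v m => by
      simp only [F]
      rw [(adm_Fper hG i).periodic_space ν t v m])
    (Uvel_zero G a) (fun t v _ => Uvel_div G a t v)
    (fun i t v ht => by
      rw [Uvel_convect G a i ht v, dtR_Uvel hG]
      simp only [F, Fper, dxR_Uvel]
      ring)
  obtain ⟨Y, hY0, hY, hhit⟩ := flow_hit G a x y halt hxy
    (fun k hk => grid_eq ((hcell k).1 hk))
    (fun k hk => ⟨grid_eq ((hcell k).2 hk).1, grid_eq ((hcell k).2 hk).2.1,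
      grid_eq ((hcell k).2 hk).2.2⟩)
    (fun s hs t ht => (grid_one 0 (-1) 1 hs ht).trans (by push_cast; ring))
    (fun s hs t ht => (grid_one 0 (-1) 0 hs ht).trans (by push_cast; ring)) rfl
  have e0 : (fun i => (((0 : Fin 3 → ℚ) i : ℚ) : ℝ)) = (0 : R3) := by
    funext i; simp
  obtain ⟨ht1, ht2⟩ := htraj 0 Y hY0 hY
  refine ⟨f, u, fun _ _ => 0, fun t => proj (Y t), fun i t v => ?_, sf, su, s0, hcl,
    fun T hT v q hv => classical_unique hν hT (hcl T hT) hv, ?_, ?_, hhit.trans hhalt⟩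
  · rw [hf, hCsum, ← hLsum]
    simp only [F]
    congr 1
    fin_cases i
    · simp [a, c, hx0]; ring
    · simp [a, c, hy0]; ring
    · simp [a, c]
  · rw [e0]; exact ht1
  · rw [e0]; exact ht2

end Vale.Agent.P113
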