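import Mathlib.Analysis.Calculus.ParametricIntegral
import Mathlib.Analysis.Calculus.Deriv.MeanValue
import Mathlib.Analysis.SpecialFunctions.ExpDeriv
import Mathlib.MeasureTheory.Constructions.Pi
import Mathlib.MeasureTheory.Integral.Prod
import Mathlib.MeasureTheory.Integral.IntervalIntegral.FundThmCalculus
import Mathlib.MeasureTheory.Measure.Lebesgue.Basic
import Mathlib.MeasureTheory.Measure.OpenPos
import Mathlib.Topology.Order.DenselyOrdered

/-! Integrals over the unit cube of periodic functions: integration by parts without boundary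
terms, and an energy lemma. -/

namespace Vale.Agent.P113.Uniq

open MeasureTheory Set Filter Topology

/-- derivative along a coordinate line, moved to an arbitrary parameter -/
theorem hasDerivAt_line_shift {E : Type*} [AddCommGroup E] [Module ℝ E] {g g' : E → ℝ} {v : E}
    (hd : ∀ x, HasDerivAt (fun s : ℝ => g (x + s • v)) (g' x) 0) (x : E) (s₀ : ℝ) :
    HasDerivAt (fun s : ℝ => g (x + s • v)) (g' (x + s₀ • v)) s₀ := by
  have h := hd (x + s₀ • v)
  have h2 : HasDerivAt (fun s : ℝ => g (x + s₀ • v + (s - s₀) • v)) (g' (x + s₀ • v)) s₀ := by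
    have h4 : HasDerivAt (fun s : ℝ => g (x + s₀ • v + s • v)) (g' (x + s₀ • v)) (s₀ - s₀) := by
      rw [sub_self]; exact h
    exact h4.comp_sub_const s₀ s₀
  refine h2.congr_of_eventuallyEq (Eventually.of_forall fun s => ?_)
  simp only [sub_smul]
  congr 1
  abel

/-- The integral over the unit cube of a continuous partial derivative of a periodic function
vanishes. -/
theorem cube_integral_deriv {n : ℕ} (j : Fin (n + 1)) {g g' : (Fin (n + 1) → ℝ) → ℝ}
    (hg' : Continuous g')
    (hd : ∀ x, HasDerivAt (fun s : ℝ => g (x + s • (Pi.single j 1 : Fin (n + 1) → ℝ))) (g' x) 0)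
    (hper : ∀ x, g (x + (Pi.single j 1 : Fin (n + 1) → ℝ)) = g x) :
    ∫ x in Icc (0 : Fin (n + 1) → ℝ) 1, g' x = 0 := by
  set e := MeasurableEquiv.piFinSuccAbove (fun _ : Fin (n + 1) => ℝ) j with he
  have hmp : MeasurePreserving e.symm volume volume :=
    (volume_preserving_piFinSuccAbove (fun _ : Fin (n + 1) => ℝ) j).symm e
  have hsymm : ∀ z : ℝ × (Fin n → ℝ), e.symm z = Fin.insertNth j z.1 z.2 := fun z => rfl
  have hpre : e.symm ⁻¹' Icc (0 : Fin (n + 1) → ℝ) 1
      = Icc (0 : ℝ) 1 ×ˢ Icc (0 : Fin n → ℝ) 1 := by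
    ext z
    simp only [mem_preimage, hsymm, mem_Icc, mem_prod, Pi.le_def, j.forall_iff_succAbove,
      Fin.insertNth_apply_same, Fin.insertNth_apply_succAbove, Pi.zero_apply, Pi.one_apply]
    tauto
  have hcont : Continuous fun z : ℝ × (Fin n → ℝ) => g' (e.symm z) := by
    refine hg'.comp ?_
    exact Continuous.finInsertNth (A := fun _ : Fin (n + 1) => ℝ) j continuous_fst continuous_snd
  rw [← hmp.setIntegral_preimage_emb e.symm.measurableEmbedding, hpre]
  have hint : IntegrableOn (fun z : ℝ × (Fin n → ℝ) => g' (e.symm z))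
      (Icc (0 : ℝ) 1 ×ˢ Icc (0 : Fin n → ℝ) 1) volume :=
    hcont.continuousOn.integrableOn_compact (isCompact_Icc.prod isCompact_Icc)
  rw [Measure.volume_eq_prod, ← Measure.prod_restrict]
  rw [IntegrableOn, Measure.volume_eq_prod, ← Measure.prod_restrict] at hint
  rw [integral_prod_symm _ hint]
  have hin : ∀ y : Fin n → ℝ, ∫ s in Icc (0 : ℝ) 1, g' (e.symm (s, y)) = 0 := by
    intro y
    have hins : ∀ s : ℝ, e.symm (s, y)
        = Fin.insertNth j (0 : ℝ) y + s • (Pi.single j 1 : Fin (n + 1) → ℝ) := by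
      intro s
      rw [hsymm]
      funext i
      refine j.succAboveCases ?_ (fun k => ?_) i
      · simp
      · simp
    simp only [hins]
    rw [integral_Icc_eq_integral_Ioc, ← intervalIntegral.integral_of_le zero_le_one,
      intervalIntegral.integral_eq_sub_of_hasDerivAt
        (f := fun s : ℝ => g (Fin.insertNth j (0 : ℝ) y + s • (Pi.single j 1 : Fin (n + 1) → ℝ)))
        (fun s _ => hasDerivAt_line_shift hd _ s)]
    · simp [hper]
    · exact (hg'.comp (by fun_prop)).intervalIntegrable _ _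
  simp [hin]

/-- A continuous nonnegative function with zero integral over the unit cube vanishes on it. -/
theorem eq_zero_of_cube_integral {n : ℕ} {g : (Fin n → ℝ) → ℝ} (hg : Continuous g)
    (h0 : ∀ x, 0 ≤ g x) (hi : ∫ x in Icc (0 : Fin n → ℝ) 1, g x = 0) :
    ∀ x ∈ Icc (0 : Fin n → ℝ) 1, g x = 0 := by
  have hint : IntegrableOn g (Icc (0 : Fin n → ℝ) 1) volume :=
    hg.continuousOn.integrableOn_compact isCompact_Icc
  have hae := (setIntegral_eq_zero_iff_of_nonneg_ae (Eventually.of_forall h0) hint).1 hi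
  have hsub : Icc (0 : Fin n → ℝ) 1 ⊆ closure (interior (Icc (0 : Fin n → ℝ) 1)) := by
    rw [← pi_univ_Icc, interior_pi_set finite_univ, closure_pi_set]
    intro x hx i hi
    have := hx i hi
    simp only [Pi.zero_apply, Pi.one_apply, interior_Icc] at this ⊢
    rwa [closure_Ioo zero_ne_one]
  exact Measure.eqOn_of_ae_eq hae hg.continuousOn continuousOn_const hsub

/-- A function with period one in every coordinate that vanishes on the unit cube vanishes. -/
theorem eq_zero_of_periodic {n : ℕ} {g : (Fin n → ℝ) → ℝ}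
    (hper : ∀ j x, g (x + (Pi.single j 1 : Fin n → ℝ)) = g x)
    (h0 : ∀ x ∈ Icc (0 : Fin n → ℝ) 1, g x = 0) (x : Fin n → ℝ) : g x = 0 := by
  have hz : ∀ (j : Fin n) (m : ℤ) (y : Fin n → ℝ),
      g (y + (Pi.single j (m : ℝ) : Fin n → ℝ)) = g y := by
    intro j m y
    have hp : Function.Periodic g (Pi.single j 1 : Fin n → ℝ) := hper j
    have := hp.zsmul m y
    rwa [← Pi.single_smul, zsmul_eq_mul, mul_one] at this
  have hs : ∀ (s : Finset (Fin n)) (m : Fin n → ℤ) (y : Fin n → ℝ),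
      g (y + ∑ j ∈ s, (Pi.single j (m j : ℝ) : Fin n → ℝ)) = g y := by
    intro s m
    induction s using Finset.induction_on with
    | empty => simp
    | insert a s ha ih =>
      intro y
      rw [Finset.sum_insert ha, add_comm (Pi.single a _), ← add_assoc, hz, ih]
  have h := hs Finset.univ (fun j => ⌊x j⌋) (fun j => Int.fract (x j))
  rw [Finset.univ_sum_single (fun j => ((⌊x j⌋ : ℤ) : ℝ))] at h
  have hx : ((fun j => Int.fract (x j)) + fun j => ((⌊x j⌋ : ℤ) : ℝ)) = x := by
    funext j; simp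
  rw [hx] at h
  rw [h]
  exact h0 _ ⟨fun j => Int.fract_nonneg _, fun j => (Int.fract_lt_one _).le⟩

/-- A function continuous on `[0, T] × ℝⁿ` is bounded on `[0, T] × [0, 1]ⁿ`. -/
theorem exists_bound_cube {n : ℕ} {T : ℝ} {F : ℝ → (Fin n → ℝ) → ℝ}
    (hF : ContinuousOn (fun z : ℝ × (Fin n → ℝ) => F z.1 z.2) (Icc 0 T ×ˢ univ)) :
    ∃ C : ℝ, 0 ≤ C ∧ ∀ t ∈ Icc 0 T, ∀ x ∈ Icc (0 : Fin n → ℝ) 1, |F t x| ≤ C := by
  have hK : IsCompact (Icc (0 : ℝ) T ×ˢ Icc (0 : Fin n → ℝ) 1) := isCompact_Icc.prod isCompact_Icc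
  obtain ⟨C, hC⟩ := hK.exists_bound_of_continuousOn
    (hF.mono (prod_mono subset_rfl (subset_univ _)))
  refine ⟨max C 0, le_max_right _ _, fun t ht x hx => ?_⟩
  exact (hC (t, x) ⟨ht, hx⟩).trans (le_max_left _ _)

theorem continuous_slice {n : ℕ} {T : ℝ} {F : ℝ → (Fin n → ℝ) → ℝ}
    (hF : ContinuousOn (fun z : ℝ × (Fin n → ℝ) => F z.1 z.2) (Icc 0 T ×ˢ univ))
    {t : ℝ} (ht : t ∈ Icc 0 T) : Continuous (F t) := by
  have : ContinuousOn (fun x : Fin n → ℝ => F t x) univ :=
    hF.comp (f := fun x : Fin n → ℝ => (t, x)) (by fun_prop) fun x _ => ⟨ht, mem_univ _⟩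
  exact continuousOn_univ.1 this

theorem continuousOn_time {n : ℕ} {T : ℝ} {F : ℝ → (Fin n → ℝ) → ℝ}
    (hF : ContinuousOn (fun z : ℝ × (Fin n → ℝ) => F z.1 z.2) (Icc 0 T ×ˢ univ))
    (x : Fin n → ℝ) : ContinuousOn (fun t => F t x) (Icc 0 T) :=
  hF.comp (f := fun t : ℝ => (t, x)) (by fun_prop) fun _ ht => ⟨ht, mem_univ _⟩

/-- Energy lemma: a density `e ≥ 0` vanishing at time zero whose time derivative `e'` has cube
integral at most `K` times that of `e` vanishes on the cube. -/
theorem energy_zero {n : ℕ} {T K : ℝ} {e e' : ℝ → (Fin n → ℝ) → ℝ}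
    (he : ContinuousOn (fun z : ℝ × (Fin n → ℝ) => e z.1 z.2) (Icc 0 T ×ˢ univ))
    (he' : ContinuousOn (fun z : ℝ × (Fin n → ℝ) => e' z.1 z.2) (Icc 0 T ×ˢ univ))
    (hd : ∀ t ∈ Icc 0 T, ∀ x, HasDerivWithinAt (fun s => e s x) (e' t x) (Icc 0 T) t)
    (h0 : ∀ t x, 0 ≤ e t x) (hinit : ∀ x, e 0 x = 0)
    (hle : ∀ t ∈ Icc 0 T, ∫ x in Icc (0 : Fin n → ℝ) 1, e' t x
      ≤ K * ∫ x in Icc (0 : Fin n → ℝ) 1, e t x) :
    ∀ t ∈ Icc 0 T, ∀ x ∈ Icc (0 : Fin n → ℝ) 1, e t x = 0 := by
  obtain ⟨C, -, hC⟩ := exists_bound_cube he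
  obtain ⟨C', -, hC'⟩ := exists_bound_cube he'
  set E : ℝ → ℝ := fun t => ∫ x in Icc (0 : Fin n → ℝ) 1, e t x with hE
  have hvol : volume (Icc (0 : Fin n → ℝ) 1) ≠ ⊤ := isCompact_Icc.measure_lt_top.ne
  have hEc : ContinuousOn E (Icc 0 T) := by
    refine continuousOn_of_dominated (bound := fun _ => C)
      (fun t ht => (continuous_slice he ht).aestronglyMeasurable) (fun t ht => ?_)
      (integrableOn_const hvol) (Eventually.of_forall fun x => continuousOn_time he x)
    exact (ae_restrict_mem measurableSet_Icc).mono fun x hx => hC t ht x hx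
  have hEd : ∀ t ∈ Ioo 0 T, HasDerivAt E (∫ x in Icc (0 : Fin n → ℝ) 1, e' t x) t := by
    intro t ht
    have hnb : Ioo 0 T ∈ 𝓝 t := isOpen_Ioo.mem_nhds ht
    refine (hasDerivAt_integral_of_dominated_loc_of_deriv_le (bound := fun _ => C') hnb ?_ ?_ ?_ ?_
      (integrableOn_const hvol) ?_).2
    · filter_upwards [hnb] with s hs
      exact (continuous_slice he (Ioo_subset_Icc_self hs)).aestronglyMeasurable
    · exact (continuous_slice he (Ioo_subset_Icc_self ht)).continuousOn.integrableOn_compact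
        isCompact_Icc
    · exact (continuous_slice he' (Ioo_subset_Icc_self ht)).aestronglyMeasurable
    · exact (ae_restrict_mem measurableSet_Icc).mono fun x hx s hs =>
        hC' s (Ioo_subset_Icc_self hs) x hx
    · exact Eventually.of_forall fun x s hs =>
        (hd s (Ioo_subset_Icc_self hs) x).hasDerivAt (Icc_mem_nhds hs.1 hs.2)
  set G : ℝ → ℝ := fun t => Real.exp (-K * t) * E t with hG
  have hGd : ∀ t ∈ Ioo 0 T, HasDerivAt G (Real.exp (-K * t) * (-K) * E t
      + Real.exp (-K * t) * ∫ x in Icc (0 : Fin n → ℝ) 1, e' t x) t := by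
    intro t ht
    have h1 : HasDerivAt (fun s : ℝ => -K * s) (-K) t := by
      simpa using (hasDerivAt_id t).const_mul (-K)
    exact h1.exp.mul (hEd t ht)
  have hanti : AntitoneOn G (Icc 0 T) := by
    refine antitoneOn_of_deriv_nonpos (convex_Icc 0 T) ?_ ?_ ?_
    · exact (by fun_prop : Continuous fun t : ℝ => Real.exp (-K * t)).continuousOn.mul hEc
    · rw [interior_Icc]
      exact fun t ht => (hGd t ht).differentiableAt.differentiableWithinAt
    · rw [interior_Icc]
      intro t ht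
      rw [(hGd t ht).deriv]
      have h1 := hle t (Ioo_subset_Icc_self ht)
      have h2 := Real.exp_pos (-K * t)
      have h3 := mul_le_mul_of_nonneg_left h1 h2.le
      simp only [hE]
      nlinarith
  intro t ht
  have hE0 : E 0 = 0 := by simp [hE, hinit]
  have h1 : G t ≤ G 0 := hanti ⟨le_rfl, ht.1.trans ht.2⟩ ht ht.1
  have h2 : 0 ≤ E t := integral_nonneg fun x => h0 t x
  have h3 : E t = 0 := by
    simp only [hG, hE0, mul_zero] at h1
    have := Real.exp_pos (-K * t)
    exact le_antisymm (by nlinarith) h2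
  exact eq_zero_of_cube_integral (continuous_slice he ht) (h0 t) h3

end Vale.Agent.P113.Uniq
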