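import Vale.Agent.P113.UniqCube
import Mathlib.Analysis.Calculus.Deriv.Pow

/-! Uniqueness of classical solutions of the periodic Navier-Stokes system by the energy
estimate. The derivatives are explicit data. -/

namespace Vale.Agent.P113.Uniq

open MeasureTheory Set Filter Topology

/-- the `j`-th coordinate vector -/
abbrev ev (j : Fin 3) : Fin 3 → ℝ := Pi.single j 1

/-- joint continuity on `[0, T] × ℝ³` -/
abbrev JC (T : ℝ) (F : ℝ → (Fin 3 → ℝ) → ℝ) : Prop :=
  ContinuousOn (fun z : ℝ × (Fin 3 → ℝ) => F z.1 z.2) (Icc 0 T ×ˢ univ)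

/-- A classical solution on `[0, T]` together with its derivatives. -/
structure SolData (T ν : ℝ) (f u : ℝ → (Fin 3 → ℝ) → Fin 3 → ℝ) (p : ℝ → (Fin 3 → ℝ) → ℝ)
    (ut : ℝ → (Fin 3 → ℝ) → Fin 3 → ℝ) (ux uxx : Fin 3 → ℝ → (Fin 3 → ℝ) → Fin 3 → ℝ)
    (px : Fin 3 → ℝ → (Fin 3 → ℝ) → ℝ) : Prop where
  u_per : ∀ t ∈ Icc 0 T, ∀ j x, u t (x + ev j) = u t x
  p_per : ∀ t ∈ Icc 0 T, ∀ j x, p t (x + ev j) = p t x
  u_cont : ∀ i, JC T fun t x => u t x i
  ut_cont : ∀ i, JC T fun t x => ut t x i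
  ux_cont : ∀ j i, JC T fun t x => ux j t x i
  uxx_cont : ∀ t ∈ Icc 0 T, ∀ j i, Continuous fun x => uxx j t x i
  p_cont : ∀ t ∈ Icc 0 T, Continuous (p t)
  px_cont : ∀ t ∈ Icc 0 T, ∀ j, Continuous (px j t)
  ut_deriv : ∀ t ∈ Icc 0 T, ∀ x i, HasDerivWithinAt (fun s => u s x i) (ut t x i) (Icc 0 T) t
  ux_deriv : ∀ t ∈ Icc 0 T, ∀ j x i, HasDerivAt (fun s : ℝ => u t (x + s • ev j) i) (ux j t x i) 0
  uxx_deriv : ∀ t ∈ Icc 0 T, ∀ j x i,
    HasDerivAt (fun s : ℝ => ux j t (x + s • ev j) i) (uxx j t x i) 0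
  px_deriv : ∀ t ∈ Icc 0 T, ∀ j x, HasDerivAt (fun s : ℝ => p t (x + s • ev j)) (px j t x) 0
  div : ∀ t ∈ Icc 0 T, ∀ x, ∑ j, ux j t x j = 0
  eqn : ∀ t ∈ Icc 0 T, ∀ x i,
    ut t x i + ∑ j, u t x j * ux j t x i = -px i t x + ν * ∑ j, uxx j t x i + f t x i
  mean : ∀ t ∈ Icc 0 T, ∫ x in Icc (0 : Fin 3 → ℝ) 1, p t x = 0

theorem deriv_periodic {g g' : (Fin 3 → ℝ) → ℝ} {j k : Fin 3}
    (hd : ∀ x, HasDerivAt (fun s : ℝ => g (x + s • ev j)) (g' x) 0)
    (hper : ∀ x, g (x + ev k) = g x) (x : Fin 3 → ℝ) : g' (x + ev k) = g' x := by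
  have h1 := hd (x + ev k)
  have h2 : (fun s : ℝ => g (x + ev k + s • ev j)) = fun s : ℝ => g (x + s • ev j) := by
    funext s
    rw [add_right_comm, hper]
  rw [h2] at h1
  exact h1.unique (hd x)

theorem quad_bound {w : Fin 3 → ℝ} {a : Fin 3 → Fin 3 → ℝ} {C : ℝ} (ha : ∀ j i, |a j i| ≤ C) :
    -(∑ i, ∑ j, w i * (w j * a j i)) ≤ 3 * C * ∑ i, w i ^ 2 := by
  have key : ∀ i j, -(w i * (w j * a j i)) ≤ C * (w i ^ 2 + w j ^ 2) / 2 := by
    intro i j
    have h1 := abs_le.1 (ha j i)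
    have hC : 0 ≤ C := (abs_nonneg _).trans (ha j i)
    nlinarith [mul_nonneg (sub_nonneg.2 h1.2) (sq_nonneg (w i - w j)),
      mul_nonneg (sub_nonneg.2 h1.1) (sq_nonneg (w i + w j))]
  simp only [Fin.sum_univ_three]
  linarith [key 0 0, key 0 1, key 0 2, key 1 0, key 1 1, key 1 2, key 2 0, key 2 1, key 2 2]

/-- The energy inequality at one time. -/
theorem static_energy {ν C : ℝ} (hν : 0 ≤ ν) {u w a : (Fin 3 → ℝ) → Fin 3 → ℝ}
    {ux wx wxx vx : Fin 3 → (Fin 3 → ℝ) → Fin 3 → ℝ} {r : (Fin 3 → ℝ) → ℝ}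
    {rx : Fin 3 → (Fin 3 → ℝ) → ℝ}
    (u_per : ∀ j x, u (x + ev j) = u x) (w_per : ∀ j x, w (x + ev j) = w x)
    (r_per : ∀ j x, r (x + ev j) = r x)
    (uc : ∀ i, Continuous fun x => u x i) (wc : ∀ i, Continuous fun x => w x i)
    (ac : ∀ i, Continuous fun x => a x i)
    (uxc : ∀ j i, Continuous fun x => ux j x i) (wxc : ∀ j i, Continuous fun x => wx j x i)
    (wxxc : ∀ j i, Continuous fun x => wxx j x i) (rc : Continuous r)
    (rxc : ∀ j, Continuous (rx j))
    (ud : ∀ j x i, HasDerivAt (fun s : ℝ => u (x + s • ev j) i) (ux j x i) 0)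
    (wd : ∀ j x i, HasDerivAt (fun s : ℝ => w (x + s • ev j) i) (wx j x i) 0)
    (wxd : ∀ j x i, HasDerivAt (fun s : ℝ => wx j (x + s • ev j) i) (wxx j x i) 0)
    (rd : ∀ j x, HasDerivAt (fun s : ℝ => r (x + s • ev j)) (rx j x) 0)
    (udiv : ∀ x, ∑ j, ux j x j = 0) (wdiv : ∀ x, ∑ j, wx j x j = 0)
    (eqn : ∀ x i, a x i + ∑ j, u x j * wx j x i + ∑ j, w x j * vx j x i
      = -rx i x + ν * ∑ j, wxx j x i)
    (hC : ∀ x ∈ Icc (0 : Fin 3 → ℝ) 1, ∀ j i, |vx j x i| ≤ C) :
    ∫ x in Icc (0 : Fin 3 → ℝ) 1, ∑ i, 2 * w x i * a x i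
      ≤ (6 * C) * ∫ x in Icc (0 : Fin 3 → ℝ) 1, ∑ i, w x i ^ 2 := by
  set G : Fin 3 → (Fin 3 → ℝ) → ℝ := fun j x =>
    -(u x j * ∑ i, w x i * w x i) - 2 * (w x j * r x) + 2 * ν * ∑ i, w x i * wx j x i with hG
  set G' : Fin 3 → (Fin 3 → ℝ) → ℝ := fun j x =>
    -(ux j x j * ∑ i, w x i * w x i + u x j * ∑ i, (wx j x i * w x i + w x i * wx j x i))
      - 2 * (wx j x j * r x + w x j * rx j x)
      + 2 * ν * ∑ i, (wx j x i * wx j x i + w x i * wxx j x i) with hG'
  have hGd : ∀ j x, HasDerivAt (fun s : ℝ => G j (x + s • ev j)) (G' j x) 0 := by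
    intro j x
    have h1 := HasDerivAt.fun_sum (u := Finset.univ) fun i _ => (wd j x i).fun_mul (wd j x i)
    have h2 := HasDerivAt.fun_sum (u := Finset.univ) fun i _ => (wd j x i).fun_mul (wxd j x i)
    have h3 := (((ud j x j).fun_mul h1).fun_neg.fun_sub
      (((wd j x j).fun_mul (rd j x)).const_mul 2)).fun_add (h2.const_mul (2 * ν))
    simpa only [zero_smul, add_zero] using h3
  have hGc : ∀ j, Continuous (G' j) := by
    intro j
    simp only [hG']
    have := rxc j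
    fun_prop
  have hGp : ∀ j x, G j (x + ev j) = G j x := by
    intro j x
    have h : ∀ i, wx j (x + ev j) i = wx j x i := fun i =>
      deriv_periodic (g := fun x => w x i) (g' := fun x => wx j x i) (fun x => wd j x i)
        (fun x => by rw [w_per]) x
    simp only [hG, u_per, w_per, r_per, h]
  have hG0 : ∀ j, ∫ x in Icc (0 : Fin 3 → ℝ) 1, G' j x = 0 := fun j =>
    cube_integral_deriv (n := 2) j (hGc j) (hGd j) (hGp j)
  have hint : ∀ {g : (Fin 3 → ℝ) → ℝ}, Continuous g → IntegrableOn g (Icc (0 : Fin 3 → ℝ) 1) :=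
    fun hg => hg.continuousOn.integrableOn_compact isCompact_Icc
  have hsum : ∫ x in Icc (0 : Fin 3 → ℝ) 1, (∑ j, G' j x + (6 * C) * ∑ i, w x i ^ 2)
      = (6 * C) * ∫ x in Icc (0 : Fin 3 → ℝ) 1, ∑ i, w x i ^ 2 := by
    rw [integral_add (hint (by fun_prop)) (hint (by fun_prop)),
      integral_finsetSum _ fun j _ => hint (hGc j), integral_const_mul]
    simp [hG0]
  rw [← hsum]
  refine setIntegral_mono_on (hint (by fun_prop)) (hint (by fun_prop)) measurableSet_Icc ?_
  intro x hx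
  have hq := quad_bound (w := w x) (a := fun j i => vx j x i) (hC x hx)
  have hpos : 0 ≤ 2 * ν * ∑ j, ∑ i, wx j x i * wx j x i :=
    mul_nonneg (by linarith)
      (Finset.sum_nonneg fun j _ => Finset.sum_nonneg fun i _ => mul_self_nonneg _)
  have hid : ∑ i, 2 * w x i * a x i = ∑ j, G' j x - 2 * ν * ∑ j, ∑ i, wx j x i * wx j x i
      - 2 * ∑ i, ∑ j, w x i * (w x j * vx j x i) := by
    have e0 := eqn x 0
    have e1 := eqn x 1
    have e2 := eqn x 2
    have d1 := udiv x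
    have d2 := wdiv x
    simp only [hG', Fin.sum_univ_three] at e0 e1 e2 d1 d2 ⊢
    linear_combination 2 * w x 0 * e0 + 2 * w x 1 * e1 + 2 * w x 2 * e2
      + (w x 0 * w x 0 + w x 1 * w x 1 + w x 2 * w x 2) * d1 + 2 * r x * d2
  rw [hid]
  linarith

/-- A function on `ℝ³` all of whose partial derivatives vanish is constant. -/
theorem const_of_partials {r : (Fin 3 → ℝ) → ℝ}
    (rd : ∀ j x, HasDerivAt (fun s : ℝ => r (x + s • ev j)) 0 0) (x : Fin 3 → ℝ) : r x = r 0 := by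
  have hl : ∀ j y (c : ℝ), r (y + c • ev j) = r y := by
    intro j y c
    have hd : ∀ s₀, HasDerivAt (fun s : ℝ => r (y + s • ev j)) 0 s₀ := fun s₀ =>
      hasDerivAt_line_shift (g' := fun _ => 0) (rd j) y s₀
    have := is_const_of_deriv_eq_zero (fun s => (hd s).differentiableAt) (fun s => (hd s).deriv) c 0
    simpa using this
  have hx : x = 0 + x 0 • ev 0 + x 1 • ev 1 + x 2 • ev 2 := by
    funext i
    fin_cases i <;> simp
  rw [hx, hl, hl, hl]

/-- Uniqueness of the velocity and of the pressure. -/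
theorem SolData.unique {T ν : ℝ} (hT : 0 < T) (hν : 0 ≤ ν)
    {f u v : ℝ → (Fin 3 → ℝ) → Fin 3 → ℝ} {p q : ℝ → (Fin 3 → ℝ) → ℝ}
    {ut vt : ℝ → (Fin 3 → ℝ) → Fin 3 → ℝ} {ux uxx vx vxx : Fin 3 → ℝ → (Fin 3 → ℝ) → Fin 3 → ℝ}
    {px qx : Fin 3 → ℝ → (Fin 3 → ℝ) → ℝ}
    (hu : SolData T ν f u p ut ux uxx px) (hv : SolData T ν f v q vt vx vxx qx)
    (h0 : ∀ x, u 0 x = v 0 x) :
    ∀ t ∈ Icc 0 T, ∀ x, u t x = v t x ∧ p t x = q t x := by
  have hb : ∀ j i, ∃ C : ℝ, 0 ≤ C ∧ ∀ t ∈ Icc 0 T, ∀ x ∈ Icc (0 : Fin 3 → ℝ) 1,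
      |vx j t x i| ≤ C := fun j i => exists_bound_cube (hv.ux_cont j i)
  choose C hC0 hC using hb
  have hCle : ∀ j i, C j i ≤ ∑ j, ∑ i, C j i := fun j i =>
    (Finset.single_le_sum (f := fun i => C j i) (fun i _ => hC0 j i) (Finset.mem_univ i)).trans
      (Finset.single_le_sum (f := fun j => ∑ i, C j i)
        (fun j _ => Finset.sum_nonneg fun i _ => hC0 j i) (Finset.mem_univ j))
  have hE := energy_zero (n := 3) (T := T) (K := 6 * ∑ j, ∑ i, C j i)
    (e := fun t x => ∑ i, (u t x i - v t x i) ^ 2)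
    (e' := fun t x => ∑ i, 2 * (u t x i - v t x i) * (ut t x i - vt t x i))
    (continuousOn_finsetSum _ fun i _ => ((hu.u_cont i).sub (hv.u_cont i)).pow 2)
    (continuousOn_finsetSum _ fun i _ =>
      (continuousOn_const.mul ((hu.u_cont i).sub (hv.u_cont i))).mul
        ((hu.ut_cont i).sub (hv.ut_cont i)))
    (fun t ht x => by
      refine HasDerivWithinAt.fun_sum fun i _ => ?_
      have := ((hu.ut_deriv t ht x i).fun_sub (hv.ut_deriv t ht x i)).fun_pow 2
      simpa using this)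
    (fun t x => Finset.sum_nonneg fun i _ => sq_nonneg _)
    (fun x => by simp [h0])
    (fun t ht => by
      refine static_energy (u := u t) (w := fun x i => u t x i - v t x i)
        (a := fun x i => ut t x i - vt t x i) (ux := fun j => ux j t)
        (wx := fun j x i => ux j t x i - vx j t x i)
        (wxx := fun j x i => uxx j t x i - vxx j t x i) (vx := fun j => vx j t)
        (r := fun x => p t x - q t x) (rx := fun j x => px j t x - qx j t x) hν
        (hu.u_per t ht) (fun j x => by simp only [hu.u_per t ht, hv.u_per t ht])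
        (fun j x => by simp only [hu.p_per t ht, hv.p_per t ht])
        (fun i => continuous_slice (F := fun t x => u t x i) (hu.u_cont i) ht)
        (fun i => continuous_slice (F := fun t x => u t x i - v t x i)
          ((hu.u_cont i).sub (hv.u_cont i)) ht)
        (fun i => continuous_slice (F := fun t x => ut t x i - vt t x i)
          ((hu.ut_cont i).sub (hv.ut_cont i)) ht)
        (fun j i => continuous_slice (F := fun t x => ux j t x i) (hu.ux_cont j i) ht)
        (fun j i => continuous_slice (F := fun t x => ux j t x i - vx j t x i)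
          ((hu.ux_cont j i).sub (hv.ux_cont j i)) ht)
        (fun j i => (hu.uxx_cont t ht j i).sub (hv.uxx_cont t ht j i))
        ((hu.p_cont t ht).sub (hv.p_cont t ht))
        (fun j => (hu.px_cont t ht j).sub (hv.px_cont t ht j))
        (hu.ux_deriv t ht)
        (fun j x i => (hu.ux_deriv t ht j x i).fun_sub (hv.ux_deriv t ht j x i))
        (fun j x i => (hu.uxx_deriv t ht j x i).fun_sub (hv.uxx_deriv t ht j x i))
        (fun j x => (hu.px_deriv t ht j x).fun_sub (hv.px_deriv t ht j x))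
        (hu.div t ht) (fun x => by rw [Finset.sum_sub_distrib, hu.div t ht, hv.div t ht, sub_zero])
        (fun x i => ?_) (fun x hx j i => (hC j i t ht x hx).trans (hCle j i))
      have e1 := hu.eqn t ht x i
      have e2 := hv.eqn t ht x i
      simp only [Fin.sum_univ_three] at e1 e2 ⊢
      linear_combination e1 - e2)
  have huv : ∀ t ∈ Icc 0 T, u t = v t := by
    intro t ht
    funext x i
    have h1 : ∑ i, (u t x i - v t x i) ^ 2 = 0 :=
      eq_zero_of_periodic (g := fun x => ∑ i, (u t x i - v t x i) ^ 2)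
        (fun j x => by simp only [hu.u_per t ht, hv.u_per t ht]) (hE t ht) x
    have h2 := (Finset.sum_eq_zero_iff_of_nonneg fun i _ => sq_nonneg _).1 h1 i (Finset.mem_univ i)
    exact sub_eq_zero.1 (pow_eq_zero_iff two_ne_zero |>.1 h2)
  intro t ht x
  refine ⟨by rw [huv t ht], ?_⟩
  have hut : ∀ x i, ut t x i = vt t x i := by
    intro x i
    have h1 := hu.ut_deriv t ht x i
    have h2 := (hv.ut_deriv t ht x i).congr (f₁ := fun s => u s x i)
      (fun s hs => by rw [huv s hs]) (by rw [huv t ht])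
    exact (uniqueDiffOn_Icc hT t ht).eq_deriv _ h1 h2
  have hux : ∀ j, ux j t = vx j t := by
    intro j
    funext x i
    have h1 := hu.ux_deriv t ht j x i
    rw [huv t ht] at h1
    exact h1.unique (hv.ux_deriv t ht j x i)
  have huxx : ∀ j x i, uxx j t x i = vxx j t x i := by
    intro j x i
    have h1 := hu.uxx_deriv t ht j x i
    rw [hux j] at h1
    exact h1.unique (hv.uxx_deriv t ht j x i)
  have hpx : ∀ j x, px j t x = qx j t x := by
    intro j x
    have e1 := hu.eqn t ht x j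
    have e2 := hv.eqn t ht x j
    simp only [hut, hux, huxx, huv t ht] at e1
    linarith
  have hc : ∀ x, p t x - q t x = p t 0 - q t 0 :=
    const_of_partials (r := fun x => p t x - q t x) fun j x => by
      have := (hu.px_deriv t ht j x).fun_sub (hv.px_deriv t ht j x)
      rwa [hpx, sub_self] at this
  have hint : ∀ {g : (Fin 3 → ℝ) → ℝ}, Continuous g → IntegrableOn g (Icc (0 : Fin 3 → ℝ) 1) :=
    fun hg => hg.continuousOn.integrableOn_compact isCompact_Icc
  have hm : ∫ x in Icc (0 : Fin 3 → ℝ) 1, (p t x - q t x) = 0 := by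
    rw [integral_sub (hint (hu.p_cont t ht)) (hint (hv.p_cont t ht)), hu.mean t ht, hv.mean t ht,
      sub_zero]
  simp only [hc, integral_const, smul_eq_mul] at hm
  have hvol : (volume.restrict (Icc (0 : Fin 3 → ℝ) 1)).real univ = 1 := by
    rw [measureReal_restrict_apply_univ, Measure.real, Real.volume_Icc_pi_toReal zero_le_one]
    simp
  rw [hvol, one_mul] at hm
  have := hc x
  linarith

end Vale.Agent.P113.Uniq
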