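import Vale.Agent.P113.Defs
import Vale.Agent.P113.UniqNS

/-! Uniqueness of classical solutions on the torus. -/

namespace Vale.Agent.P113.Uniq

open MeasureTheory Set Filter Topology

theorem continuous_proj : Continuous proj :=
  continuous_pi fun i => (AddCircle.continuous_mk' 1).comp (continuous_apply i)

theorem proj_add (x y : R3) : proj (x + y) = proj x + proj y := rfl

theorem proj_surj (x : T3) : ∃ y, proj y = x := by
  have h : ∀ i, ∃ y : ℝ, (y : UnitAddCircle) = x i := fun i => QuotientAddGroup.mk_surjective (x i)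
  choose y hy using h
  exact ⟨y, funext hy⟩

theorem proj_add_ev (x : R3) (j : Fin 3) : proj (x + ev j) = proj x := by
  funext i
  by_cases h : i = j
  · subst h
    simp [proj]
  · simp [proj, Pi.single_eq_of_ne h]

theorem proj_add_smul_ev (x : R3) (j : Fin 3) (s : ℝ) :
    proj (x + s • ev j) = proj x + proj (Pi.single j s) := by
  rw [← proj_add, ← Pi.single_smul, smul_eq_mul, mul_one]

theorem measurePreserving_proj :
    MeasurePreserving proj (volume.restrict (Icc (0 : R3) 1)) volume := by
  have h := measurePreserving_pi (fun _ : Fin 3 => volume.restrict (Ioc (0 : ℝ) (0 + 1)))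
    (fun _ : Fin 3 => (volume : Measure UnitAddCircle))
    (fun _ => UnitAddCircle.measurePreserving_mk 0)
  rw [← Measure.restrict_pi_pi] at h
  have h2 : (univ.pi fun _ : Fin 3 => Ioc (0 : ℝ) (0 + 1))
      =ᵐ[Measure.pi fun _ : Fin 3 => (volume : Measure ℝ)] Icc (0 : R3) 1 := by
    simpa using Measure.univ_pi_Ioc_ae_eq_Icc (μ := fun _ : Fin 3 => (volume : Measure ℝ))
      (f := (0 : R3)) (g := 1)
  rw [Measure.restrict_congr_set h2] at h
  exact h

/-- The integral over the torus is the integral over the unit cube. -/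
theorem integral_cube_proj {g : T3 → ℝ} (hg : Continuous g) :
    ∫ x in Icc (0 : R3) 1, g (proj x) = ∫ x, g x := by
  rw [← measurePreserving_proj.map_eq,
    integral_map continuous_proj.measurable.aemeasurable hg.aestronglyMeasurable]

theorem Cont.jc {T : ℝ} {g : ℝ → T3 → ℝ} (hg : Cont T g) : JC T fun t x => g t (proj x) :=
  ContinuousOn.comp (g := fun z : ℝ × T3 => g z.1 z.2) (f := fun z : ℝ × R3 => (z.1, proj z.2)) hg
    (continuous_fst.prodMk (continuous_proj.comp continuous_snd)).continuousOn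
    fun _ hz => ⟨hz.1, mem_univ _⟩

theorem Cont.slice {T : ℝ} {g : ℝ → T3 → ℝ} (hg : Cont T g) {t : ℝ} (ht : t ∈ Icc 0 T) :
    Continuous (g t) := by
  have : ContinuousOn (fun x : T3 => g t x) univ :=
    ContinuousOn.comp (g := fun z : ℝ × T3 => g z.1 z.2) (f := fun x : T3 => (t, x)) hg
      (by fun_prop) fun x _ => ⟨ht, mem_univ _⟩
  exact continuousOn_univ.1 this

theorem HasDx.deriv {T : ℝ} {g : ℝ → T3 → ℝ} (hg : HasDx T g) {t : ℝ} (ht : t ∈ Icc 0 T)
    (j : Fin 3) (x : R3) :
    HasDerivAt (fun s : ℝ => g t (proj (x + s • ev j))) (dx j g t (proj x)) 0 := by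
  simp only [proj_add_smul_ev]
  exact ((hg j).1 t ht (proj x)).hasDerivAt

theorem solData_of_isClassical {ν T : ℝ} {f u : Fin 3 → ℝ → T3 → ℝ} {p : ℝ → T3 → ℝ}
    (h : IsClassical ν f T u p) :
    SolData T ν (fun t x i => f i t (proj x)) (fun t x i => u i t (proj x))
      (fun t x => p t (proj x)) (fun t x i => dt T (u i) t (proj x))
      (fun j t x i => dx j (u i) t (proj x)) (fun j t x i => dx j (dx j (u i)) t (proj x))
      (fun j t x => dx j p t (proj x)) where
  u_per t _ j x := by simp only [proj_add_ev]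
  p_per t _ j x := by simp only [proj_add_ev]
  u_cont i := Cont.jc (h.cont_u i)
  ut_cont i := Cont.jc (h.dt_u i).2
  ux_cont j i := Cont.jc (h.dx_u i j).2
  uxx_cont _ ht j i := (Cont.slice (h.dxx_u i j j).2 ht).comp continuous_proj
  p_cont _ ht := (Cont.slice h.cont_p ht).comp continuous_proj
  px_cont _ ht j := (Cont.slice (h.dx_p j).2 ht).comp continuous_proj
  ut_deriv t ht x i := ((h.dt_u i).1 t ht (proj x)).hasDerivWithinAt
  ux_deriv _ ht j x i := HasDx.deriv (h.dx_u i) ht j x
  uxx_deriv _ ht j x i := HasDx.deriv (h.dxx_u i j) ht j x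
  px_deriv _ ht j x := HasDx.deriv h.dx_p ht j x
  div t ht x := h.div_u t ht (proj x)
  eqn t ht x i := h.momentum i t ht (proj x)
  mean t ht := (integral_cube_proj (Cont.slice h.cont_p ht)).trans (h.mean_p t ht)

end Vale.Agent.P113.Uniq

namespace Vale.Agent.P113

open Set

/-- Classical solutions on `[0, T] × 𝕋³` are unique. -/
theorem classical_unique {ν T : ℝ} {f u v : Fin 3 → ℝ → T3 → ℝ} {p q : ℝ → T3 → ℝ}
    (hν : 0 < ν) (hT : 0 < T) (h1 : IsClassical ν f T u p) (h2 : IsClassical ν f T v q) :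
    ∀ t ∈ Icc 0 T, ∀ x, (∀ i, v i t x = u i t x) ∧ q t x = p t x := by
  intro t ht x
  obtain ⟨y, rfl⟩ := Uniq.proj_surj x
  have h := (Uniq.solData_of_isClassical h1).unique hT hν.le (Uniq.solData_of_isClassical h2)
    (fun x => by funext i; rw [h1.init, h2.init]) t ht y
  exact ⟨fun i => (congrFun h.1 i).symm, h.2.symm⟩

end Vale.Agent.P113
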