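import Mathlib.Computability.TuringMachine.ToPartrec
import Mathlib.Computability.RE
import Mathlib.Computability.PartrecBasis

/-! A finite Post-Turing machine that halts exactly on the members of a given r.e. set. -/

namespace Vale.Agent.P113

open Turing StateTransition

/-- Binary increment on little-endian bit lists. -/
def binc : List Bool → List Bool
  | [] => [true]
  | false :: l => true :: l
  | true :: l => false :: binc l

/-- Little-endian binary digits. -/
def bin : ℕ → List Bool
  | 0 => []
  | n + 1 => binc (bin n)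

theorem primrec_binc : Primrec binc := by
  have h : Primrec fun l : List Bool =>
      (List.recOn l [true] fun b l' ih => bif b then false :: ih else true :: l' : List Bool) := by
    refine Primrec.list_rec (f := fun l : List Bool => l) (g := fun _ => [true])
      (h := fun _ x => bif x.1 then false :: x.2.2 else true :: x.2.1) Primrec.id
      (Primrec.const _) ?_
    refine Primrec.cond (Primrec.fst.comp Primrec.snd) ?_ ?_
    · exact Primrec.list_cons.comp (Primrec.const false)
        (Primrec.snd.comp (Primrec.snd.comp Primrec.snd))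
    · exact Primrec.list_cons.comp (Primrec.const true)
        (Primrec.fst.comp (Primrec.snd.comp Primrec.snd))
  refine h.of_eq fun l => ?_
  induction l with
  | nil => rfl
  | cons b l ih =>
    cases b
    · rfl
    · simp only [binc, cond_true]
      rw [← ih]

theorem primrec_bin : Primrec bin := by
  have h : Primrec fun n : ℕ => (Nat.rec [] (fun _ ih => binc ih) n : List Bool) :=
    Primrec.nat_rec₁ (f := fun _ ih => binc ih) [] (primrec_binc.comp Primrec.snd)
  refine h.of_eq fun n => ?_
  induction n with
  | zero => rfl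
  | succ n ih => simp only [bin]; rw [← ih]

/-- The tape symbol of a bit. -/
def bitSym (b : Bool) : PartrecToTM2.Γ' := bif b then .bit1 else .bit0

/-- Bits of a positive binary number. -/
def posBits : PosNum → List Bool
  | PosNum.one => [true]
  | PosNum.bit0 n => false :: posBits n
  | PosNum.bit1 n => true :: posBits n

/-- Bits of a binary number. -/
def numBits : Num → List Bool
  | Num.zero => []
  | Num.pos n => posBits n

theorem posBits_succ (p : PosNum) : posBits p.succ = binc (posBits p) := by
  induction p with
  | one => rfl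
  | bit0 n _ => rfl
  | bit1 n ih => simp only [PosNum.succ, posBits, binc, ih]

theorem numBits_succ (p : Num) : numBits p.succ = binc (numBits p) := by
  cases p with
  | zero => rfl
  | pos n => exact posBits_succ n

theorem numBits_cast (n : ℕ) : numBits (n : Num) = bin n := by
  induction n with
  | zero => rw [Nat.cast_zero]; rfl
  | succ n ih => rw [Nat.cast_succ, Num.add_one, numBits_succ, ih]; rfl

theorem trPosNum_eq (p : PosNum) : PartrecToTM2.trPosNum p = (posBits p).map bitSym := by
  induction p with
  | one => rfl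
  | bit0 n ih => simp only [PartrecToTM2.trPosNum, posBits, List.map_cons, ih]; rfl
  | bit1 n ih => simp only [PartrecToTM2.trPosNum, posBits, List.map_cons, ih]; rfl

theorem trNat_eq (n : ℕ) : PartrecToTM2.trNat n = (bin n).map bitSym := by
  rw [← numBits_cast, PartrecToTM2.trNat]
  cases (n : Num) with
  | zero => rfl
  | pos p => exact trPosNum_eq p

/-- Restriction of a finitely supported machine to a finite state type. -/
theorem exists_finite_states {Γ Λ : Type} [Inhabited Γ] [Inhabited Λ] (M : TM0.Machine Γ Λ)
    (S : Finset Λ) (ss : TM0.Supports M (S : Set Λ)) :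
    ∃ (Λ' : Type) (_ : Fintype Λ') (_ : Inhabited Λ') (M' : TM0.Machine Γ Λ'),
      ∀ l : List Γ, (eval (TM0.step M') (TM0.init l)).Dom ↔ (eval (TM0.step M) (TM0.init l)).Dom := by
  classical
  have hd : (default : Λ) ∈ S := ss.1
  let : Inhabited {q // q ∈ S} := ⟨⟨default, hd⟩⟩
  let g₁ : PointedMap Λ {q // q ∈ S} :=
    ⟨fun q => if h : q ∈ S then ⟨q, h⟩ else default, by simp only [dif_pos hd]; rfl⟩
  let f : PointedMap Γ Γ := ⟨id, rfl⟩
  refine ⟨{q // q ∈ S}, inferInstance, inferInstance, M.map f f g₁ Subtype.val, fun l => ?_⟩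
  have H := TM0.Machine.map_respects M f f g₁ Subtype.val ss (fun _ => rfl) (fun q hq => by
    have hq' : q ∈ S := hq
    show ((if h : q ∈ S then (⟨q, h⟩ : {q // q ∈ S}) else default) : {q // q ∈ S}).1 = q
    rw [dif_pos hq'])
  refine tr_eval_dom H ⟨hd, ?_⟩
  rw [TM0.map_init]
  congr 1
  exact List.map_id l

theorem exists_tm0 (p : ℕ → Prop) (hp : REPred p) :
    ∃ (Γ Λ : Type) (_ : Fintype Γ) (_ : Fintype Λ) (_ : Inhabited Γ) (_ : Inhabited Λ)
      (M : TM0.Machine Γ Λ) (inp : ℕ → List Γ),
      (∀ g : Γ → ℕ, Computable fun n => (inp n).map g) ∧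
      ∀ n, (eval (TM0.step M) (TM0.init (inp n))).Dom ↔ p n := by
  classical
  have h1 : Partrec fun n : ℕ => (Part.assert (p n) fun _ => Part.some ()).map fun _ => (0 : ℕ) :=
    Partrec.map hp (Computable.const 0).to₂
  obtain ⟨c, hc⟩ := ToPartrec.Code.exists_code (Nat.Partrec'.part_iff₁.2 h1)
  let : Fintype PartrecToTM2.K' := ⟨{.main, .rev, .aux, .stack}, fun x => by cases x <;> simp⟩
  let iΛ : Inhabited PartrecToTM2.Λ' := ⟨PartrecToTM2.trNormal c PartrecToTM2.Cont'.halt⟩
  have s2 := PartrecToTM2.tr_supports c PartrecToTM2.Cont'.halt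
  have s1 := TM2to1.tr_supports PartrecToTM2.tr s2
  have s0 := TM1to0.tr_supports (TM2to1.tr PartrecToTM2.tr) s1
  obtain ⟨Λ', i1, i2, M', hM'⟩ := exists_finite_states _ _ s0
  refine ⟨_, Λ', inferInstance, i1, inferInstance, i2, M',
    fun n => TM2to1.trInit PartrecToTM2.K'.main (PartrecToTM2.trList [n]), fun g => ?_, fun n => ?_⟩
  · let g0 : ℕ := g (true, Function.update (fun _ => none) PartrecToTM2.K'.main
      (some PartrecToTM2.Γ'.cons))
    let g1 : Bool → ℕ := fun b => g (false, Function.update (fun _ => none) PartrecToTM2.K'.main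
      (some (bitSym b)))
    have hg1 : Primrec g1 := Primrec.dom_bool g1
    have h : Primrec fun n : ℕ => g0 :: ((bin n).reverse.map g1) :=
      Primrec.list_cons.comp (Primrec.const g0)
        (Primrec.list_map (Primrec.list_reverse.comp primrec_bin) (hg1.comp Primrec.snd).to₂)
    refine h.to_comp.of_eq fun n => ?_
    have e : PartrecToTM2.trList [n] =
        (PartrecToTM2.Γ'.cons :: List.map bitSym (bin n).reverse).reverse := by
      simp [PartrecToTM2.trList, trNat_eq]
    have key : ∀ l : List Bool, List.map g (TM2to1.trInit (Γ := fun _ => PartrecToTM2.Γ')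
        PartrecToTM2.K'.main (PartrecToTM2.Γ'.cons :: List.map bitSym l).reverse) =
        g0 :: List.map g1 l := by
      intro l
      have e2 : ∀ L : List PartrecToTM2.Γ', TM2to1.trInit (Γ := fun _ => PartrecToTM2.Γ')
          PartrecToTM2.K'.main (PartrecToTM2.Γ'.cons :: L).reverse =
          (true, Function.update (fun _ => none) PartrecToTM2.K'.main (some PartrecToTM2.Γ'.cons)) ::
          L.map (fun a => (false, Function.update (fun _ => none) PartrecToTM2.K'.main (some a))) := by
        intro L
        unfold TM2to1.trInit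
        rw [List.reverse_reverse]
        rfl
      rw [e2]
      show g0 :: _ = g0 :: _
      congr 1
      induction l with
      | nil => rfl
      | cons b l ih => exact congrArg (List.cons (g1 b)) ih
    show _ = List.map g (TM2to1.trInit (Γ := fun _ => PartrecToTM2.Γ')
        PartrecToTM2.K'.main (PartrecToTM2.trList [n]))
    rw [e, key]
  · rw [hM']
    have e0 := TM1to0.tr_eval (TM2to1.tr PartrecToTM2.tr)
      (TM2to1.trInit PartrecToTM2.K'.main (PartrecToTM2.trList [n]))
    have e1 := TM2to1.tr_eval_dom PartrecToTM2.tr PartrecToTM2.K'.main (PartrecToTM2.trList [n])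
    have e2 := PartrecToTM2.tr_eval c [n]
    have e3 := hc ⟨[n], rfl⟩
    have d0 : (eval (TM0.step (TM1to0.tr (TM2to1.tr PartrecToTM2.tr)))
        (TM0.init (TM2to1.trInit PartrecToTM2.K'.main (PartrecToTM2.trList [n])))).Dom ↔
        (TM1.eval (TM2to1.tr PartrecToTM2.tr)
          (TM2to1.trInit PartrecToTM2.K'.main (PartrecToTM2.trList [n]))).Dom := by
      rw [← e0]; rfl
    have i2 : (TM2.init PartrecToTM2.K'.main (PartrecToTM2.trList [n]) :
        TM2.Cfg (fun _ : PartrecToTM2.K' => PartrecToTM2.Γ') PartrecToTM2.Λ'
          (Option PartrecToTM2.Γ')) = PartrecToTM2.init c [n] := by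
      unfold TM2.init PartrecToTM2.init
      congr 1
      funext k
      cases k <;> rfl
    have d2 : (TM2.eval PartrecToTM2.tr PartrecToTM2.K'.main (PartrecToTM2.trList [n])).Dom ↔
        (c.eval [n]).Dom := by
      unfold TM2.eval
      rw [i2]
      show (eval (TM2.step PartrecToTM2.tr) (PartrecToTM2.init c [n])).Dom ↔ _
      rw [e2]; rfl
    refine d0.trans (e1.trans (d2.trans ?_))
    have e4 : c.eval [n] = _ := e3
    rw [e4]
    show (∃ _ : p n, True) ↔ p n
    exact ⟨fun ⟨h, _⟩ => h, fun h => ⟨h, trivial⟩⟩

end Vale.Agent.P113
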